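import Vale.Agent.P321.H834.TBasic

/-!
# LB2, T-step, G2 (a1): the labels of `X` and `X'` (helper117)
-/

namespace Vale.Agent.P321.H117

open Finset Vale.Agent.P321.H576

variable {k m : ℕ} {d : Fin k → ℤ} {g : E k → Fin m → ℤ} {F Q G : ℤ}

/-- the representative of the cell `t` in the central copy -/
def rep (Q t : ℤ) : ℤ := t - (2 * Q + 1) * ((t + Q) / (2 * Q + 1))

theorem rep_of_abs_le {Q t : ℤ} (h : |t| ≤ Q) : rep Q t = t := by
  have h1 := abs_le.mp h
  have : (t + Q) / (2 * Q + 1) = 0 := Int.ediv_eq_zero_of_lt (by linarith) (by linarith)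
  rw [rep, this, mul_zero, sub_zero]

theorem rep_add {Q : ℤ} (hQ : 0 ≤ Q) (t : ℤ) : rep Q (t + (2 * Q + 1)) = rep Q t := by
  have : (t + (2 * Q + 1) + Q) / (2 * Q + 1) = (t + Q) / (2 * Q + 1) + 1 := by
    rw [show t + (2 * Q + 1) + Q = (t + Q) + 1 * (2 * Q + 1) by ring,
      Int.add_mul_ediv_right _ _ (by linarith : (2 * Q + 1) ≠ 0)]
  rw [rep, rep, this]
  ring

theorem abs_rep_le {Q : ℤ} (hQ : 0 ≤ Q) (t : ℤ) : |rep Q t| ≤ Q := by
  have h1 := Int.emod_nonneg (t + Q) (by linarith : (2 * Q + 1) ≠ 0)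
  have h2 := Int.emod_lt_of_pos (t + Q) (by linarith : 0 < 2 * Q + 1)
  have h3 := Int.emod_add_mul_ediv (t + Q) (2 * Q + 1)
  rw [abs_le, rep]
  constructor <;> nlinarith

open Classical in
/-- label of `X` (`s = 1`) or `X'` (`s = -1`) in the central copy -/
noncomputable def labC (d : Fin k → ℤ) (g : E k → Fin m → ℤ) (l : Finset (Fin k) → ℕ)
    (w w' : ℕ) (s : ℝ) (t : ℤ) : ℕ :=
  if ∃ (n0 : Fin m → Bool) (n : E k → Fin m → Bool), t = Z n0 + S g n ∧ sg n0 * sgE n = s then w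
  else if Top g t then w' else l (act d g t)

theorem labC_top_eq {l : Finset (Fin k) → ℕ} {w w' : ℕ} {s : ℝ} (n0 : Fin m → Bool)
    (n : E k → Fin m → Bool) (h : sg n0 * sgE n = s) :
    labC d g l w w' s (Z n0 + S g n) = w := by
  rw [labC, if_pos ⟨n0, n, rfl, h⟩]

theorem labC_top_ne (hG : Gen d g F Q G) {l : Finset (Fin k) → ℕ} {w w' : ℕ} {s : ℝ}
    (n0 : Fin m → Bool) (n : E k → Fin m → Bool) (h : sg n0 * sgE n ≠ s) :
    labC d g l w w' s (Z n0 + S g n) = w' := by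
  rw [labC, if_neg, if_pos ⟨n0, n, rfl⟩]
  rintro ⟨a0, a, e, h'⟩
  obtain ⟨rfl, rfl⟩ := H834.gen_inj hG e
  exact h h'

theorem labC_not_top {l : Finset (Fin k) → ℕ} {w w' : ℕ} {s : ℝ} {t : ℤ} (h : ¬ Top g t) :
    labC d g l w w' s t = l (act d g t) := by
  rw [labC, if_neg, if_neg h]
  rintro ⟨a0, a, e, -⟩
  exact h ⟨a0, a, e⟩

theorem labC_le {l : Finset (Fin k) → ℕ} {w w' Lb : ℕ} (hl : ∀ K, l K ≤ Lb) (hw : w ≤ Lb)
    (hw' : w' ≤ Lb) (s : ℝ) (t : ℤ) : labC d g l w w' s t ≤ Lb := by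
  rw [labC]
  split_ifs
  · exact hw
  · exact hw'
  · exact hl _

/-- **(a1)** existence of the labels, with periodic contexts -/
theorem exists_lab (hG : Gen d g F Q G) {l : Finset (Fin k) → ℕ} {w w' Lb : ℕ}
    (hl : ∀ K, l K ≤ Lb) (hw : w ≤ Lb) (hw' : w' ≤ Lb) :
    ∃ lp lm : ℤ → ℕ, Lab d g Q l w w' Lb lp lm ∧ (∀ t, lp (t + (2 * Q + 1)) = lp t) ∧
      (∀ t, Q < |t| → lm t = lp t) ∧ lp 0 = w ∧ lm 0 = w' := by
  have hQ : 0 ≤ Q := by
    have h1 := hG.FQ
    have h2 := H834.gen_Fpos hG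
    linarith
  have htop : ∀ (n0 : Fin m → Bool) (n : E k → Fin m → Bool), |Z n0 + S g n| ≤ Q := by
    intro n0 n
    have h1 := H834.gen_Z_le hG n0
    have h2 := H834.gen_S_nonneg hG n
    have h3 := H834.gen_S_le hG n
    have h4 := hG.FQ
    have h5 := H834.gen_Fpos hG
    calc |Z n0 + S g n| ≤ |Z n0| + |S g n| := abs_add_le _ _
      _ = |Z n0| + S g n := by rw [abs_of_nonneg h2]
      _ ≤ Q := by linarith
  set lp : ℤ → ℕ := fun t => labC d g l w w' 1 (rep Q t) with hlp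
  set lm : ℤ → ℕ := fun t => if |t| ≤ Q then labC d g l w w' (-1) t else lp t with hlm
  have lp_in : ∀ t, |t| ≤ Q → lp t = labC d g l w w' 1 t := by
    intro t ht
    simp only [hlp, rep_of_abs_le ht]
  have lm_in : ∀ t, |t| ≤ Q → lm t = labC d g l w w' (-1) t := by
    intro t ht
    simp only [hlm, if_pos ht]
  have key : ∀ (n0 : Fin m → Bool) (n : E k → Fin m → Bool), sg n0 * sgE n = 1 →
      lp (Z n0 + S g n) = w ∧ lm (Z n0 + S g n) = w' := by
    intro n0 n h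
    rw [lp_in _ (htop n0 n), lm_in _ (htop n0 n), labC_top_eq n0 n h,
      labC_top_ne hG n0 n (by rw [h]; norm_num)]
    exact ⟨rfl, rfl⟩
  refine ⟨lp, lm, ⟨key, ?_, ?_, ?_, ?_⟩, ?_, ?_, ?_⟩
  · intro n0 n h
    rw [lp_in _ (htop n0 n), lm_in _ (htop n0 n), labC_top_eq n0 n h,
      labC_top_ne hG n0 n (by rw [h]; norm_num)]
    exact ⟨rfl, rfl⟩
  · intro t ht
    by_cases h : |t| ≤ Q
    · rw [lp_in t h, lm_in t h, labC_not_top ht, labC_not_top ht]
    · simp only [hlm, if_neg h]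
  · intro t h ht
    rw [lp_in t h, labC_not_top ht]
  · intro t
    constructor
    · exact labC_le hl hw hw' _ _
    · simp only [hlm]
      split_ifs
      · exact labC_le hl hw hw' _ _
      · exact labC_le hl hw hw' _ _
  · intro t
    simp only [hlp, rep_add hQ]
  · intro t ht
    simp only [hlm, if_neg (not_le.mpr ht)]
  · have h0 : Z (fun _ : Fin m => false) + S g (fun _ _ => false) = 0 := by
      simp [Z, S, T0, Ts, Te, H576.val]
    have h1 : sg (fun _ : Fin m => false) * sgE (fun (_ : E k) (_ : Fin m) => false) = 1 := by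
      simp [sg, sgE]
    have := key _ _ h1
    rwa [h0] at this

end Vale.Agent.P321.H117
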