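import Vale.Agent.P321.H117.NShift

/-!
Cells (block [EXP] of LB2): ordered products, expansion over the set of cells in which the
difference letter is taken, translation of patterns, norms.
-/

namespace Vale.Agent.P321.H117

open Finset

section alg

variable {A : Type*} [Ring A]

/-- ordered product `f a * f (a + 1) * ... * f (a + n - 1)` -/
def seg (f : ℕ → A) (a : ℕ) : ℕ → A
  | 0 => 1
  | n + 1 => seg f a n * f (a + n)

@[simp] theorem seg_zero (f : ℕ → A) (a : ℕ) : seg f a 0 = 1 := rfl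

theorem seg_succ (f : ℕ → A) (a n : ℕ) : seg f a (n + 1) = seg f a n * f (a + n) := rfl

@[simp] theorem seg_one (f : ℕ → A) (a : ℕ) : seg f a 1 = f a := by
  rw [seg_succ, seg_zero, one_mul, add_zero]

theorem seg_add (f : ℕ → A) (a m n : ℕ) : seg f a (m + n) = seg f a m * seg f (a + m) n := by
  induction n with
  | zero => simp
  | succ n ih => rw [← add_assoc, seg_succ, seg_succ, ih, mul_assoc, add_assoc]

theorem seg_congr {f g : ℕ → A} {a b n : ℕ} (h : ∀ i < n, f (a + i) = g (b + i)) :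
    seg f a n = seg g b n := by
  induction n with
  | zero => rfl
  | succ n ih =>
    rw [seg_succ, seg_succ, ih fun i hi => h i (by omega), h n (by omega)]

theorem seg_eq_pow {f : ℕ → A} {R : A} {a n : ℕ} (h : ∀ i < n, f (a + i) = R) :
    seg f a n = R ^ n := by
  induction n with
  | zero => simp
  | succ n ih =>
    rw [seg_succ, ih fun i hi => h i (by omega), h n (by omega), pow_succ]

theorem seg_const (R : A) (a n : ℕ) : seg (fun _ => R) a n = R ^ n := seg_eq_pow fun _ _ => rfl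

/-- the pattern `P`: the letters `x t` in the cells `t ∈ P`, the rest letter `R` elsewhere -/
def BB (R : A) (x : ℕ → A) (P : Finset ℕ) (a n : ℕ) : A :=
  seg (fun t => if t ∈ P then x t else R) a n

@[simp] theorem BB_zero (R : A) (x : ℕ → A) (P : Finset ℕ) (a : ℕ) : BB R x P a 0 = 1 := rfl

theorem BB_succ (R : A) (x : ℕ → A) (P : Finset ℕ) (a n : ℕ) :
    BB R x P a (n + 1) = BB R x P a n * (if a + n ∈ P then x (a + n) else R) := rfl

theorem BB_one (R : A) (x : ℕ → A) (P : Finset ℕ) (a : ℕ) :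
    BB R x P a 1 = if a ∈ P then x a else R := by
  rw [BB, seg_one]

theorem BB_add (R : A) (x : ℕ → A) (P : Finset ℕ) (a m n : ℕ) :
    BB R x P a (m + n) = BB R x P a m * BB R x P (a + m) n := seg_add _ _ _ _

theorem BB_congr {R : A} {x x' : ℕ → A} {P P' : Finset ℕ} {a b n : ℕ}
    (hP : ∀ i < n, (a + i ∈ P ↔ b + i ∈ P')) (hx : ∀ i < n, a + i ∈ P → x (a + i) = x' (b + i)) :
    BB R x P a n = BB R x' P' b n := by
  refine seg_congr fun i hi => ?_
  by_cases h : a + i ∈ P
  · simp only [if_pos h, if_pos ((hP i hi).mp h), hx i hi h]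
  · simp only [if_neg h, if_neg (fun h' => h ((hP i hi).mpr h'))]

theorem BB_eq_pow {R : A} {x : ℕ → A} {P : Finset ℕ} {a n : ℕ} (h : ∀ i < n, a + i ∉ P) :
    BB R x P a n = R ^ n := seg_eq_pow fun i hi => if_neg (h i hi)

@[simp] theorem BB_empty (R : A) (x : ℕ → A) (a n : ℕ) : BB R x ∅ a n = R ^ n :=
  BB_eq_pow fun _ _ => notMem_empty _

/-- **Expansion.** -/
theorem seg_expand (R : A) (x : ℕ → A) (a n : ℕ) :
    seg (fun t => R + x t) a n = ∑ P ∈ (Ico a (a + n)).powerset, BB R x P a n := by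
  induction n with
  | zero => simp
  | succ n ih =>
    have hI : Ico a (a + (n + 1)) = insert (a + n) (Ico a (a + n)) := by
      ext t; simp only [mem_Ico, mem_insert]; omega
    have hn : a + n ∉ Ico a (a + n) := by simp
    rw [seg_succ, ih, hI, sum_powerset_insert hn, ← sum_add_distrib, sum_mul]
    refine sum_congr rfl fun P hP => ?_
    have hP' := mem_powerset.mp hP
    have h1 : a + n ∉ P := fun h => hn (hP' h)
    rw [BB_succ, BB_succ, if_neg h1, if_pos (mem_insert_self _ _), mul_add]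
    congr 2
    refine BB_congr (fun i hi => ?_) fun _ _ _ => rfl
    simp only [mem_insert]
    constructor
    · exact fun h => Or.inr h
    · rintro (h | h)
      · omega
      · exact h

/-- difference of two products with the same rest letter -/
theorem seg_sub_seg (R : A) (x x' : ℕ → A) (a n : ℕ) :
    seg (fun t => R + x' t) a n - seg (fun t => R + x t) a n
      = ∑ P ∈ (Ico a (a + n)).powerset, (BB R x' P a n - BB R x P a n) := by
  rw [seg_expand, seg_expand, sum_sub_distrib]

/-- the expansion over the patterns which do not vanish -/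
theorem seg_expand_of (R : A) (x : ℕ → A) (a n : ℕ) (D : Finset ℕ) (hD : D ⊆ Ico a (a + n))
    (hx : ∀ t ∈ Ico a (a + n), t ∉ D → x t = 0) :
    seg (fun t => R + x t) a n = ∑ P ∈ D.powerset, BB R x P a n := by
  rw [seg_expand]
  symm
  refine sum_subset (powerset_mono.mpr hD) fun P hP hPD => ?_
  rw [mem_powerset] at hP hPD
  obtain ⟨t, htP, htD⟩ := not_subset.mp hPD
  obtain ⟨h1, h2⟩ := mem_Ico.mp (hP htP)
  obtain ⟨k, hk⟩ := Nat.exists_eq_add_of_le h1
  obtain ⟨m, hm⟩ := Nat.exists_eq_add_of_lt h2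
  have e : n = k + 1 + m := by omega
  rw [e, BB_add, BB_succ, ← hk, if_pos htP, hx t (hP htP) htD, mul_zero, zero_mul]

/-- core of a pattern -/
theorem BB_core {R : A} {x : ℕ → A} {P : Finset ℕ} {a m c : ℕ} (hP : P ⊆ Ico a (a + m)) :
    BB R x P 0 (a + m + c) = R ^ a * BB R x P a m * R ^ c := by
  rw [BB_add, BB_add, zero_add, zero_add]
  rw [BB_eq_pow (a := 0) (n := a) fun i hi h => by
      have := mem_Ico.mp (hP h); omega,
    BB_eq_pow (a := a + m) (n := c) fun i hi h => by
      have := mem_Ico.mp (hP h); omega]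

/-- core of a pattern inside a larger window -/
theorem BB_core' {R : A} {x : ℕ → A} {P : Finset ℕ} {b a m c : ℕ}
    (hP : P ⊆ Ico (b + a) (b + a + m)) :
    BB R x P b (a + m + c) = R ^ a * BB R x P (b + a) m * R ^ c := by
  rw [BB_add, BB_add]
  rw [BB_eq_pow (a := b) (n := a) fun i hi h => by
      have := mem_Ico.mp (hP h); omega,
    BB_eq_pow (a := b + (a + m)) (n := c) fun i hi h => by
      have := mem_Ico.mp (hP h); omega]

/-- translation of a pattern -/
theorem BB_shift {R : A} {x x' : ℕ → A} {P P' : Finset ℕ} (τ : ℕ) {a n : ℕ}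
    (hP : ∀ i < n, (a + i ∈ P ↔ a + i + τ ∈ P')) (hx : ∀ i < n, a + i ∈ P → x' (a + i + τ) = x (a + i)) :
    BB R x' P' (a + τ) n = BB R x P a n := by
  symm
  refine BB_congr (fun i hi => ?_) fun i hi h => ?_
  · rw [hP i hi]; congr! 1; omega
  · rw [← hx i hi h]; congr 1; omega

/-- translation of a pattern, as a set -/
theorem BB_shift_map {R : A} {x x' : ℕ → A} {P : Finset ℕ} (τ : ℕ) {a n : ℕ}
    (hx : ∀ t ∈ P, x' (t + τ) = x t) :
    BB R x' (P.map (addRightEmbedding τ)) (a + τ) n = BB R x P a n := by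
  refine BB_shift τ (fun i _ => ?_) fun i _ h => hx _ h
  rw [mem_map]
  constructor
  · exact fun h => ⟨_, h, rfl⟩
  · rintro ⟨t, ht, e⟩
    simp only [addRightEmbedding_apply] at e
    have : t = a + i := by omega
    rwa [this] at ht

/-- single cell -/
theorem BB_singleton {R : A} {x : ℕ → A} (s c : ℕ) :
    BB R x {s} 0 (s + 1 + c) = R ^ s * x s * R ^ c := by
  have := BB_core (R := R) (x := x) (P := {s}) (a := s) (m := 1) (c := c) (by
    intro t ht; rw [mem_singleton] at ht; subst ht; simp)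
  rw [this, BB_one, if_pos (mem_singleton_self _)]

/-- two cells -/
theorem BB_pair {R : A} {x : ℕ → A} (s g c : ℕ) :
    BB R x {s, s + 1 + g} 0 (s + 1 + g + 1 + c) = R ^ s * x s * R ^ g * x (s + 1 + g) * R ^ c := by
  have h0 : s + 1 + g + 1 + c = s + (1 + g + 1) + c := by ring
  rw [h0, BB_core (a := s) (m := 1 + g + 1) (c := c) (by
    intro t ht
    rw [mem_insert, mem_singleton] at ht
    rw [mem_Ico]; omega), BB_succ, BB_add, BB_one, if_pos (mem_insert_self _ _)]
  have h1 : s + (1 + g) = s + 1 + g := by ring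
  rw [h1, if_pos (by simp), BB_eq_pow (a := s + 1) (n := g) fun i hi h => by
    rw [mem_insert, mem_singleton] at h; omega]
  simp only [mul_assoc]

end alg

section norm

variable {A : Type*} [NormedRing A] [NormedAlgebra ℝ A] [NormOneClass A]

theorem nrm_seg_le {f : ℕ → A} {e : ℕ → ℝ} {a n : ℕ} (h : ∀ t, a ≤ t → t < a + n → norm (f t) ≤ e t) :
    norm (seg f a n) ≤ ∏ t ∈ Ico a (a + n), e t := by
  induction n with
  | zero => simp [norm_one]
  | succ n ih =>
    rw [seg_succ, ← add_assoc, prod_Ico_succ_top (by omega)]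
    refine (norm_mul_le _ _).trans (mul_le_mul (ih fun t h1 h2 => h t h1 (by omega))
      (h _ (by omega) (by omega)) (norm_nonneg _) ?_)
    exact prod_nonneg fun t ht => (norm_nonneg _).trans
      (h t (mem_Ico.mp ht).1 (by have := (mem_Ico.mp ht).2; omega))

theorem nrm_seg_le_one {f : ℕ → A} {a n : ℕ} (h : ∀ t, a ≤ t → t < a + n → norm (f t) ≤ 1) :
    norm (seg f a n) ≤ 1 := by
  simpa using nrm_seg_le (e := fun _ => 1) h

theorem nrm_BB_le {R : A} {x : ℕ → A} {P : Finset ℕ} {e : ℕ → ℝ} {a n : ℕ} (hR : norm R ≤ 1)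
    (hx : ∀ t ∈ P, a ≤ t → t < a + n → norm (x t) ≤ e t) :
    norm (BB R x P a n) ≤ ∏ t ∈ P.filter (fun t => a ≤ t ∧ t < a + n), e t := by
  have h1 : norm (BB R x P a n) ≤ ∏ t ∈ Ico a (a + n), if t ∈ P then e t else 1 := by
    refine nrm_seg_le fun t h1 h2 => ?_
    by_cases h : t ∈ P
    · simp only [if_pos h]; exact hx t h h1 h2
    · simp only [if_neg h]; exact hR
  refine h1.trans (le_of_eq ?_)
  rw [prod_ite, prod_const_one, mul_one]
  refine prod_congr ?_ fun _ _ => rfl
  ext t; simp only [mem_filter, mem_Ico]; tauto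

theorem nrm_BB_le' {R : A} {x : ℕ → A} {P : Finset ℕ} {e : ℕ → ℝ} {a n : ℕ} (hR : norm R ≤ 1)
    (hP : P ⊆ Ico a (a + n)) (hx : ∀ t ∈ P, norm (x t) ≤ e t) :
    norm (BB R x P a n) ≤ ∏ t ∈ P, e t := by
  refine (nrm_BB_le hR fun t ht _ _ => hx t ht).trans (le_of_eq ?_)
  congr 1
  ext t; simp only [mem_filter, and_iff_left_iff_imp]
  intro h; have := mem_Ico.mp (hP h); omega

theorem nrm_BB_le_pow {R : A} {x : ℕ → A} {P : Finset ℕ} {E : ℝ} {a n : ℕ} (hR : norm R ≤ 1)
    (hP : P ⊆ Ico a (a + n)) (hx : ∀ t ∈ P, norm (x t) ≤ E) :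
    norm (BB R x P a n) ≤ E ^ P.card := by
  have := nrm_BB_le' (e := fun _ => E) hR hP hx
  rwa [prod_const] at this

/-- a pattern with an isolated cell: the isolated cell is estimated together with its context -/
theorem nrm_BB_isolated {R : A} {x : ℕ → A} {P : Finset ℕ} {E E2 : ℝ} {a n s F : ℕ}
    (hR : norm R ≤ 1) (hE : 0 ≤ E) (hP : P ⊆ Ico a (a + n)) (hs : s ∈ P) (hF1 : a + F ≤ s)
    (hF2 : s + F + 1 ≤ a + n) (hiso : ∀ t ∈ P, t ≠ s → t + F < s ∨ s + F < t)
    (hx : ∀ t ∈ P, norm (x t) ≤ E) (hx2 : norm (R ^ F * x s * R ^ F) ≤ E2) :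
    norm (BB R x P a n) ≤ E2 * E ^ (P.card - 1) := by
  obtain ⟨k, hk⟩ := Nat.exists_eq_add_of_le hF1
  obtain ⟨m, hm⟩ := Nat.exists_eq_add_of_le hF2
  have e : n = k + (F + 1 + F) + m := by omega
  rw [e, BB_add, BB_add]
  have e2 : BB R x P (a + k) (F + 1 + F) = R ^ F * x s * R ^ F := by
    have hs' : a + k + F = s := by omega
    rw [BB_add, BB_succ, hs', if_pos hs, BB_eq_pow (a := a + k) (n := F) fun i hi h => by
      rcases hiso _ h (by omega) with h' | h' <;> omega,
      BB_eq_pow (n := F) fun i hi h => by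
      rcases hiso _ h (by omega) with h' | h' <;> omega]
  have hfil : ∀ b c : ℕ, ∏ t ∈ P.filter (fun t => b ≤ t ∧ t < b + c), E
      = E ^ (P.filter (fun t => b ≤ t ∧ t < b + c)).card := fun b c => prod_const _
  have n1 := nrm_BB_le (R := R) (x := x) (P := P) (e := fun _ => E) (a := a) (n := k) hR
    fun t ht _ _ => hx t ht
  have n2 := nrm_BB_le (R := R) (x := x) (P := P) (e := fun _ => E)
    (a := a + (k + (F + 1 + F))) (n := m) hR fun t ht _ _ => hx t ht
  rw [hfil] at n1 n2
  set P1 := P.filter (fun t => a ≤ t ∧ t < a + k)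
  set P2 := P.filter (fun t => a + (k + (F + 1 + F)) ≤ t ∧ t < a + (k + (F + 1 + F)) + m)
  have hcard : P.card - 1 = P1.card + P2.card := by
    have hd : Disjoint P1 P2 := by
      rw [disjoint_left]
      intro t h1 h2
      have := (mem_filter.mp h1).2
      have := (mem_filter.mp h2).2
      omega
    rw [← card_union_of_disjoint hd, ← card_erase_of_mem hs]
    congr 1
    ext t
    simp only [P1, P2, mem_erase, mem_union, mem_filter]
    constructor
    · rintro ⟨h1, h2⟩
      have := mem_Ico.mp (hP h2)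
      rcases hiso t h2 h1 with h | h
      · exact Or.inl ⟨h2, by omega⟩
      · exact Or.inr ⟨h2, by omega⟩
    · rintro (⟨h1, h2⟩ | ⟨h1, h2⟩)
      · exact ⟨by omega, h1⟩
      · exact ⟨by omega, h1⟩
  rw [e2, hcard, pow_add]
  calc norm (BB R x P a k * (R ^ F * x s * R ^ F) * BB R x P (a + (k + (F + 1 + F))) m)
      ≤ norm (BB R x P a k * (R ^ F * x s * R ^ F))
        * norm (BB R x P (a + (k + (F + 1 + F))) m) := norm_mul_le _ _
    _ ≤ (norm (BB R x P a k) * norm (R ^ F * x s * R ^ F))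
        * norm (BB R x P (a + (k + (F + 1 + F))) m) :=
        mul_le_mul_of_nonneg_right (norm_mul_le _ _) (norm_nonneg _)
    _ ≤ (E ^ P1.card * E2) * E ^ P2.card := by
        refine mul_le_mul (mul_le_mul n1 hx2 (norm_nonneg _) (pow_nonneg hE _)) n2
          (norm_nonneg _) (mul_nonneg (pow_nonneg hE _) ((norm_nonneg _).trans hx2))
    _ = E2 * (E ^ P1.card * E ^ P2.card) := by ring

/-- number of patterns with `k` cells -/
theorem sum_powersetCard_le {D : Finset ℕ} {E : ℝ} (hE : 0 ≤ E) (k : ℕ) :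
    ∑ P ∈ D.powersetCard k, E ^ P.card ≤ (D.card * E) ^ k := by
  rw [sum_congr rfl fun P hP => by rw [(mem_powersetCard.mp hP).2], sum_const, card_powersetCard,
    nsmul_eq_mul, mul_pow]
  refine mul_le_mul_of_nonneg_right ?_ (pow_nonneg hE _)
  exact_mod_cast Nat.choose_le_pow D.card k

/-- tail of the expansion -/
theorem sum_powerset_tail_le {D : Finset ℕ} {E : ℝ} (hE : 0 ≤ E) (k : ℕ)
    (hs : D.card * E ≤ 1 / 2) :
    ∑ P ∈ D.powerset.filter (fun P => k ≤ P.card), E ^ P.card ≤ 2 * (D.card * E) ^ k := by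
  set q := (D.card : ℝ) * E
  have hq : 0 ≤ q := mul_nonneg (Nat.cast_nonneg _) hE
  have h1 : ∑ P ∈ D.powerset.filter (fun P => k ≤ P.card), E ^ P.card
      ≤ ∑ j ∈ Ico k (k + (D.card + 1)), q ^ j := by
    have h2 : D.powerset.filter (fun P => k ≤ P.card)
        ⊆ (Ico k (k + (D.card + 1))).biUnion fun j => D.powersetCard j := by
      intro P hP
      obtain ⟨h1, h2⟩ := mem_filter.mp hP
      rw [mem_biUnion]
      refine ⟨P.card, ?_, ?_⟩
      · have := card_le_card (mem_powerset.mp h1)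
        rw [mem_Ico]; omega
      · rw [mem_powersetCard]; exact ⟨mem_powerset.mp h1, rfl⟩
    refine (sum_le_sum_of_subset_of_nonneg h2 fun P _ _ => pow_nonneg hE _).trans ?_
    rw [sum_biUnion fun i _ j _ hij => pairwise_disjoint_powersetCard D hij]
    exact sum_le_sum fun j _ => sum_powersetCard_le hE j
  refine h1.trans ?_
  rw [sum_Ico_eq_sum_range, Nat.add_sub_cancel_left]
  simp only [pow_add]
  rw [← mul_sum, mul_comm 2]
  refine mul_le_mul_of_nonneg_left ?_ (pow_nonneg hq _)
  have h3 : ∀ n : ℕ, ∑ j ∈ range n, q ^ j ≤ 2 - (1 / 2 : ℝ) ^ n * 2 := by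
    intro n
    induction n with
    | zero => simp
    | succ n ih =>
      rw [sum_range_succ, pow_succ]
      have := pow_le_pow_left₀ hq hs n
      linarith
  refine (h3 _).trans ?_
  have : (0:ℝ) ≤ (1 / 2 : ℝ) ^ (D.card + 1) * 2 := by positivity
  linarith

end norm

end Vale.Agent.P321.H117
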