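import Vale.Agent.P321.Bdl.B5
import Vale.Agent.P321.H117.NCells

/-!
The list side of cells (block [EXP] of LB2).
-/

namespace Vale.Agent.P321.H117

open Finset

/-- the cell `false^l true false^(C-1-l)` -/
def cellL (C l : ℕ) : List Bool :=
  List.replicate l false ++ true :: List.replicate (C - 1 - l) false

/-- concatenation of the cells `a, ..., a + n - 1` with labels `lab` -/
def cellsL (C : ℕ) (lab : ℕ → ℕ) (a : ℕ) : ℕ → List Bool
  | 0 => []
  | n + 1 => cellsL C lab a n ++ cellL C (lab (a + n))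

theorem length_cellL {C l : ℕ} (h : l + 1 ≤ C) : (cellL C l).length = C := by
  simp only [cellL, List.length_append, List.length_replicate, List.length_cons]
  omega

theorem length_cellsL {C : ℕ} {lab : ℕ → ℕ} {a n : ℕ}
    (h : ∀ i < n, lab (a + i) + 1 ≤ C) : (cellsL C lab a n).length = C * n := by
  induction n with
  | zero => simp [cellsL]
  | succ n ih =>
    rw [cellsL, List.length_append, ih fun i hi => h i (by omega), length_cellL (h n (by omega))]
    ring

theorem cellL_inj {C l l' : ℕ} (h : cellL C l = cellL C l') : l = l' := by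
  have key : ∀ l l' : ℕ, l < l' → cellL C l ≠ cellL C l' := by
    intro l l' hl e
    have h1 : (cellL C l)[l]? = some true := by
      rw [cellL, List.getElem?_append_right (by simp)]
      simp
    have h2 : (cellL C l')[l]? = some false := by
      rw [cellL, List.getElem?_append_left (by simpa using hl)]
      simp [hl]
    rw [e, h2] at h1
    simp at h1
  rcases lt_trichotomy l l' with h1 | h1 | h1
  · exact absurd h (key _ _ h1)
  · exact h1
  · exact absurd h.symm (key _ _ h1)

theorem cellsL_inj {C : ℕ} {lab lab' : ℕ → ℕ} {a n : ℕ}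
    (h : ∀ i < n, lab (a + i) + 1 ≤ C) (h' : ∀ i < n, lab' (a + i) + 1 ≤ C)
    (e : cellsL C lab a n = cellsL C lab' a n) : ∀ i < n, lab (a + i) = lab' (a + i) := by
  induction n with
  | zero => intro i hi; omega
  | succ n ih =>
    rw [cellsL, cellsL] at e
    obtain ⟨e1, e2⟩ := List.append_inj e (by
      rw [length_cellsL fun i hi => h i (by omega), length_cellsL fun i hi => h' i (by omega)])
    intro i hi
    rcases Nat.lt_succ_iff_lt_or_eq.mp hi with h1 | rfl
    · exact ih (fun i hi => h i (by omega)) (fun i hi => h' i (by omega)) e1 i h1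
    · exact cellL_inj e2

variable {G : Type*} [Monoid G]

theorem wd_replicate_false (Y Z : MonoidAlgebra ℝ G) (n : ℕ) :
    MA.wd Y Z (List.replicate n false) = Y ^ n := by
  induction n with
  | zero => rw [List.replicate_zero, MA.wd_nil, pow_zero]
  | succ n ih => rw [List.replicate_succ, MA.wd_cons, ih, pow_succ']; rfl

theorem wd_cellL {Y Z : MonoidAlgebra ℝ G} {C l : ℕ} (h : l + 1 ≤ C) :
    MA.wd Y Z (cellL C l) = Y ^ C + Y ^ l * (Z - Y) * Y ^ (C - 1 - l) := by
  rw [cellL, MA.wd_append, MA.wd_cons, wd_replicate_false, wd_replicate_false, if_pos rfl]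
  have e : Y ^ C = Y ^ l * (Y * Y ^ (C - 1 - l)) := by
    rw [← pow_succ', ← pow_add]; congr 1; omega
  rw [e]
  noncomm_ring

/-- **Word of cells = ordered product.** -/
theorem wd_cellsL {Y Z : MonoidAlgebra ℝ G} {C : ℕ} {lab : ℕ → ℕ} {a n : ℕ}
    (h : ∀ i < n, lab (a + i) + 1 ≤ C) :
    MA.wd Y Z (cellsL C lab a n)
      = seg (fun t => Y ^ C + Y ^ lab t * (Z - Y) * Y ^ (C - 1 - lab t)) a n := by
  induction n with
  | zero => rw [cellsL, MA.wd_nil, seg_zero]
  | succ n ih =>
    rw [cellsL, MA.wd_append, ih fun i hi => h i (by omega), wd_cellL (h n (by omega)), seg_succ]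

/-- the word of cells over the strings `u`, `v` -/
theorem W_sub_cellsL {q : ℝ} {u v : List Bool} {C : ℕ} {lab : ℕ → ℕ} {a n : ℕ}
    (h : ∀ i < n, lab (a + i) + 1 ≤ C) :
    W q (MA.sub u v (cellsL C lab a n))
      = seg (fun t => W q u ^ C + W q u ^ lab t * (W q v - W q u) * W q u ^ (C - 1 - lab t)) a n := by
  rw [MA.sub_W, wd_cellsL h]

theorem length_sub_cellsL {u v : List Bool} (huv : u.length = v.length) {C : ℕ} {lab : ℕ → ℕ}
    {a n : ℕ} (h : ∀ i < n, lab (a + i) + 1 ≤ C) :
    (MA.sub u v (cellsL C lab a n)).length = C * n * u.length := by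
  rw [MA.sub_length u v huv, length_cellsL h]

theorem sub_cellsL_ne {u v : List Bool} (huv : u.length = v.length) (hne : u ≠ v) {C : ℕ}
    {lab lab' : ℕ → ℕ} {a n : ℕ} (h : ∀ i < n, lab (a + i) + 1 ≤ C)
    (h' : ∀ i < n, lab' (a + i) + 1 ≤ C) (hl : ∃ i < n, lab (a + i) ≠ lab' (a + i)) :
    MA.sub u v (cellsL C lab a n) ≠ MA.sub u v (cellsL C lab' a n) := by
  intro e
  obtain ⟨i, hi, hi'⟩ := hl
  have := MA.sub_inj u v huv hne _ _ (by rw [length_cellsL h, length_cellsL h']) e
  exact hi' (cellsL_inj h h' this i hi)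

end Vale.Agent.P321.H117
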