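import Mathlib.Analysis.Normed.Ring.Basic
import Mathlib.Analysis.Normed.Module.Basic
import Mathlib.RingTheory.Polynomial.Pochhammer
import Mathlib.Tactic

/-!
Shift calculus (block [EXP] of LB2): differences of translates of a rigid block between powers of
the base letter `Y`, and resolution of labels up to moments.
-/

namespace Vale.Agent.P321.H117

open Finset

variable {A : Type*} [NormedRing A] [NormedAlgebra ℝ A] [NormOneClass A]

/-- the slip of the base letter after `M` letters -/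
def sl (Y : A) (M : ℕ) : ℝ := norm ((1 - Y) * Y ^ M)

theorem sl_nonneg (Y : A) (M : ℕ) : 0 ≤ sl Y M := norm_nonneg _

theorem mul_prob_left {x y : A} (hx : ‖x‖ ≤ 1) : ‖x * y‖ ≤ ‖y‖ := by
  refine (norm_mul_le x y).trans ?_
  have := mul_le_mul_of_nonneg_right hx (norm_nonneg y)
  simpa using this

theorem mul_prob_right {x y : A} (hy : ‖y‖ ≤ 1) : ‖x * y‖ ≤ ‖x‖ := by
  refine (norm_mul_le x y).trans ?_
  have := mul_le_mul_of_nonneg_left hy (norm_nonneg x)
  simpa using this

variable {Y : A}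

theorem nrm_pow_le_one (hY : norm Y ≤ 1) (n : ℕ) : norm (Y ^ n) ≤ 1 :=
  (norm_pow_le Y n).trans (pow_le_one₀ (norm_nonneg _) hY)

theorem nrm_mul_pow_le (hY : norm Y ≤ 1) (x : A) (n : ℕ) : norm (x * Y ^ n) ≤ norm x :=
  mul_prob_right (nrm_pow_le_one hY n)

theorem nrm_pow_mul_le (hY : norm Y ≤ 1) (x : A) (n : ℕ) : norm (Y ^ n * x) ≤ norm x :=
  mul_prob_left (nrm_pow_le_one hY n)

theorem sl_anti (hY : norm Y ≤ 1) {M M' : ℕ} (h : M ≤ M') : sl Y M' ≤ sl Y M := by
  obtain ⟨k, rfl⟩ := Nat.exists_eq_add_of_le h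
  unfold sl
  rw [pow_add, ← mul_assoc]
  exact nrm_mul_pow_le hY _ _

theorem nrm_one_sub_pow_mul (hY : norm Y ≤ 1) (γ M : ℕ) :
    norm ((1 - Y ^ γ) * Y ^ M) ≤ γ * sl Y M := by
  induction γ with
  | zero => simp [norm_zero]
  | succ γ ih =>
    have e : (1 - Y ^ (γ + 1)) * Y ^ M = (1 - Y ^ γ) * Y ^ M + (1 - Y) * Y ^ M * Y ^ γ := by
      have h1 : (1 - Y) * Y ^ M * Y ^ γ = Y ^ γ * Y ^ M - Y ^ (γ + 1) * Y ^ M := by
        rw [← pow_add, ← pow_add, mul_assoc, ← pow_add, sub_mul, one_mul, ← pow_succ']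
        congr 2 <;> ring
      rw [h1, sub_mul, sub_mul]
      abel
    rw [e]
    refine (norm_add_le _ _).trans ?_
    have h2 : norm ((1 - Y) * Y ^ M * Y ^ γ) ≤ sl Y M := nrm_mul_pow_le hY _ _
    push_cast
    linarith

theorem nrm_pow_mul_one_sub (hY : norm Y ≤ 1) (γ M : ℕ) :
    norm (Y ^ M * (1 - Y ^ γ)) ≤ γ * sl Y M := by
  have e : Y ^ M * (1 - Y ^ γ) = (1 - Y ^ γ) * Y ^ M := by
    rw [mul_sub, sub_mul, mul_one, one_mul, ← pow_add, ← pow_add, add_comm]
  rw [e]
  exact nrm_one_sub_pow_mul hY γ M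

/-- one shift in context -/
theorem nrm_comm_ctx (hY : norm Y ≤ 1) (γ M : ℕ) (X : A) :
    norm (Y ^ M * (X * Y ^ γ - Y ^ γ * X) * Y ^ M) ≤ 2 * (γ * sl Y M) * norm X := by
  have e : Y ^ M * (X * Y ^ γ - Y ^ γ * X) * Y ^ M
      = Y ^ M * (1 - Y ^ γ) * (X * Y ^ M) - Y ^ M * X * ((1 - Y ^ γ) * Y ^ M) := by
    noncomm_ring
  rw [e]
  refine (norm_sub_le _ _).trans ?_
  have h1 : norm (Y ^ M * (1 - Y ^ γ) * (X * Y ^ M)) ≤ (γ * sl Y M) * norm X :=
    (norm_mul_le _ _).trans (mul_le_mul (nrm_pow_mul_one_sub hY γ M) (nrm_mul_pow_le hY X M)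
      (norm_nonneg _) (mul_nonneg (Nat.cast_nonneg _) (sl_nonneg _ _)))
  have h2 : norm (Y ^ M * X * ((1 - Y ^ γ) * Y ^ M)) ≤ norm X * (γ * sl Y M) :=
    (norm_mul_le _ _).trans (mul_le_mul (nrm_pow_mul_le hY X M) (nrm_one_sub_pow_mul hY γ M)
      (norm_nonneg _) (norm_nonneg _))
  linarith

/-- **Shift lemma**: the alternating sum over all sub-sums of the shifts `γ b`, `b ∈ s`, of the
translates of the rigid block `X`, with `#s * M` letters of context on both sides. -/
theorem shift_bound {ι : Type*} [DecidableEq ι] (hY : norm Y ≤ 1) (M : ℕ) (s : Finset ι)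
    (γ : ι → ℕ) (X : A) (g h : ℕ) (hg : s.card * M ≤ g) (hh : s.card * M ≤ h) :
    norm (∑ T ∈ s.powerset, (-1 : ℝ) ^ T.card •
      (Y ^ (g + ∑ b ∈ T, γ b) * X * Y ^ (h + ∑ b ∈ s \ T, γ b)))
      ≤ norm X * ∏ b ∈ s, (2 * (γ b * sl Y M)) := by
  induction s using Finset.induction_on generalizing X g h with
  | empty =>
    simp only [powerset_empty, sum_singleton, card_empty, pow_zero, sum_empty, add_zero,
      sdiff_empty, one_smul, prod_empty, mul_one]
    exact (nrm_mul_pow_le hY _ _).trans (nrm_pow_mul_le hY _ _)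
  | insert b s hb ih =>
    have hc : (insert b s).card = s.card + 1 := card_insert_of_notMem hb
    rw [hc] at hg hh
    obtain ⟨g', rfl⟩ : ∃ g', g = g' + M := ⟨g - M, by
      have : (s.card + 1) * M = s.card * M + M := by ring
      omega⟩
    obtain ⟨h', rfl⟩ : ∃ h', h = h' + M := ⟨h - M, by
      have : (s.card + 1) * M = s.card * M + M := by ring
      omega⟩
    have hg' : s.card * M ≤ g' := by
      have : (s.card + 1) * M = s.card * M + M := by ring
      omega
    have hh' : s.card * M ≤ h' := by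
      have : (s.card + 1) * M = s.card * M + M := by ring
      omega
    have key := ih (Y ^ M * (X * Y ^ γ b - Y ^ γ b * X) * Y ^ M) g' h' hg' hh'
    have e : (∑ T ∈ (insert b s).powerset, (-1 : ℝ) ^ T.card •
        (Y ^ (g' + M + ∑ c ∈ T, γ c) * X * Y ^ (h' + M + ∑ c ∈ insert b s \ T, γ c)))
        = ∑ T ∈ s.powerset, (-1 : ℝ) ^ T.card •
          (Y ^ (g' + ∑ c ∈ T, γ c) * (Y ^ M * (X * Y ^ γ b - Y ^ γ b * X) * Y ^ M)
            * Y ^ (h' + ∑ c ∈ s \ T, γ c)) := by
      rw [sum_powerset_insert hb, ← sum_add_distrib]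
      refine sum_congr rfl fun T hT => ?_
      have hT' : T ⊆ s := mem_powerset.mp hT
      have hbT : b ∉ T := fun h => hb (hT' h)
      rw [card_insert_of_notMem hbT, sum_insert hbT]
      have e1 : insert b s \ T = insert b (s \ T) := by
        rw [insert_sdiff_of_notMem _ hbT]
      have e2 : insert b s \ insert b T = s \ T := by
        ext c
        simp only [mem_sdiff, mem_insert]
        constructor
        · rintro ⟨h1, h2⟩
          push Not at h2
          exact ⟨h1.resolve_left h2.1, h2.2⟩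
        · rintro ⟨h1, h2⟩
          refine ⟨Or.inr h1, ?_⟩
          rintro (rfl | h3)
          · exact hb h1
          · exact h2 h3
      have hbs : b ∉ s \ T := fun h => hb (mem_sdiff.mp h).1
      rw [e1, e2, sum_insert hbs, pow_succ, mul_neg_one, neg_smul, ← sub_eq_add_neg, ← smul_sub]
      congr 1
      have p1 : Y ^ (g' + M + ∑ c ∈ T, γ c) = Y ^ (g' + ∑ c ∈ T, γ c) * Y ^ M := by
        rw [← pow_add]; congr 1; ring
      have p2 : Y ^ (h' + M + (γ b + ∑ c ∈ s \ T, γ c))
          = Y ^ γ b * Y ^ M * Y ^ (h' + ∑ c ∈ s \ T, γ c) := by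
        rw [← pow_add, ← pow_add]; congr 1; ring
      have p3 : Y ^ (g' + M + (γ b + ∑ c ∈ T, γ c))
          = Y ^ (g' + ∑ c ∈ T, γ c) * Y ^ M * Y ^ γ b := by
        rw [← pow_add, ← pow_add]; congr 1; ring
      have p4 : Y ^ (h' + M + ∑ c ∈ s \ T, γ c) = Y ^ M * Y ^ (h' + ∑ c ∈ s \ T, γ c) := by
        rw [← pow_add]; congr 1; ring
      rw [p1, p2, p3, p4]
      noncomm_ring
    rw [e]
    refine key.trans ?_
    rw [prod_insert hb]
    have hp : 0 ≤ ∏ c ∈ s, (2 * (γ c * sl Y M)) := prod_nonneg fun c _ => by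
      have := sl_nonneg Y M
      positivity
    calc _ ≤ (2 * (γ b * sl Y M) * norm X) * ∏ c ∈ s, (2 * (γ c * sl Y M)) :=
          mul_le_mul_of_nonneg_right (nrm_comm_ctx hY _ _ _) hp
      _ = _ := by ring

/-- uniform version -/
theorem shift_bound' {ι : Type*} [DecidableEq ι] (hY : norm Y ≤ 1) {M : ℕ} (s : Finset ι)
    (γ : ι → ℕ) {Γ : ℝ} (hΓ : ∀ b ∈ s, (γ b : ℝ) ≤ Γ) (X : A) (g h : ℕ) (hg : s.card * M ≤ g)
    (hh : s.card * M ≤ h) :
    norm (∑ T ∈ s.powerset, (-1 : ℝ) ^ T.card •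
      (Y ^ (g + ∑ b ∈ T, γ b) * X * Y ^ (h + ∑ b ∈ s \ T, γ b)))
      ≤ norm X * (2 * Γ * sl Y M) ^ s.card := by
  refine (shift_bound hY M s γ X g h hg hh).trans ?_
  refine mul_le_mul_of_nonneg_left ?_ (norm_nonneg _)
  have hs := sl_nonneg Y M
  rw [← prod_const]
  refine prod_le_prod (fun b _ => by positivity) fun b hb => ?_
  have := mul_le_mul_of_nonneg_right (hΓ b hb) hs
  linarith

/-! ### labels -/

/-- **Label lemma**: if all binomial moments of order `< m` of the coefficients `c` vanish, the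
combination of the blocks with labels `ℓ ≤ Λ` is small in a context of `m * M` letters. -/
theorem label_bound (hY : norm Y ≤ 1) (M m Λ : ℕ) (c : ℕ → ℝ)
    (hc : ∀ i < m, ∑ l ∈ range (Λ + 1), c l * (l.choose i : ℝ) = 0) (X : A) (g h : ℕ)
    (hg : m * M ≤ g) (hh : m * M ≤ h) :
    norm (Y ^ g * (∑ l ∈ range (Λ + 1), c l • (Y ^ l * X * Y ^ (Λ - l))) * Y ^ h)
      ≤ (∑ l ∈ range (Λ + 1), |c l|) * (2 * Λ * sl Y M) ^ m * norm X := by
  induction m generalizing Λ c X g h with
  | zero =>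
    rw [pow_zero, mul_one, sum_mul]
    refine (nrm_mul_pow_le hY _ _).trans ((nrm_pow_mul_le hY _ _).trans ?_)
    refine (norm_sum_le _ _).trans (sum_le_sum fun l _ => ?_)
    rw [norm_smul, Real.norm_eq_abs]
    exact mul_le_mul_of_nonneg_left ((nrm_mul_pow_le hY _ _).trans (nrm_pow_mul_le hY _ _))
      (abs_nonneg _)
  | succ m ih =>
    have hs := sl_nonneg Y M
    obtain ⟨g', rfl⟩ : ∃ g', g = g' + M := ⟨g - M, by
      have : (m + 1) * M = m * M + M := by ring
      omega⟩
    obtain ⟨h', rfl⟩ : ∃ h', h = h' + M := ⟨h - M, by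
      have : (m + 1) * M = m * M + M := by ring
      omega⟩
    have hg' : m * M ≤ g' := by
      have : (m + 1) * M = m * M + M := by ring
      omega
    have hh' : m * M ≤ h' := by
      have : (m + 1) * M = m * M + M := by ring
      omega
    -- total mass zero
    have h0 : ∑ l ∈ range (Λ + 1), c l = 0 := by
      have := hc 0 (Nat.succ_pos m)
      simpa using this
    rcases Nat.eq_zero_or_pos Λ with rfl | hΛ
    · -- only label 0, coefficient 0
      have : c 0 = 0 := by simpa using h0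
      simp [this, norm_zero]
    obtain ⟨L, rfl⟩ : ∃ L, Λ = L + 1 := ⟨Λ - 1, by omega⟩
    -- partial sums
    set d : ℕ → ℝ := fun j => ∑ i ∈ range (j + 1), c i with hd
    have hdlast : d (L + 1) = 0 := h0
    have hcd : ∀ j, c (j + 1) = d (j + 1) - d j := by
      intro j
      simp only [hd]
      rw [sum_range_succ c (j + 1)]
      ring
    have hc0 : c 0 = d 0 := by simp [hd]
    -- summation by parts, general form
    have parts : ∀ (N : ℕ) (F : ℕ → A), ∑ l ∈ range (N + 1), c l • F l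
        = d N • F N + ∑ j ∈ range N, d j • (F j - F (j + 1)) := by
      intro N F
      induction N with
      | zero => simp [hc0]
      | succ N ihN =>
        rw [sum_range_succ, ihN, sum_range_succ, hcd N, sub_smul, smul_sub]
        abel
    have partsR : ∀ (N : ℕ) (F : ℕ → ℝ), ∑ l ∈ range (N + 1), c l * F l
        = d N * F N + ∑ j ∈ range N, d j * (F j - F (j + 1)) := by
      intro N F
      induction N with
      | zero => simp [hc0]
      | succ N ihN =>
        rw [sum_range_succ, ihN, sum_range_succ, hcd N]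
        ring
    have hmom : ∀ i < m, ∑ j ∈ range (L + 1), d j * (j.choose i : ℝ) = 0 := by
      intro i hi
      have h1 := hc (i + 1) (by omega)
      rw [partsR (L + 1) (fun l => (l.choose (i + 1) : ℝ)), hdlast, zero_mul, zero_add] at h1
      have h2 : ∀ j, d j * ((j.choose (i + 1) : ℝ) - ((j + 1).choose (i + 1) : ℝ))
          = -(d j * (j.choose i : ℝ)) := by
        intro j
        rw [Nat.choose_succ_succ']
        push_cast
        ring
      simp only [h2, sum_neg_distrib, neg_eq_zero] at h1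
      exact h1
    have e : Y ^ (g' + M) * (∑ l ∈ range (L + 1 + 1), c l • (Y ^ l * X * Y ^ (L + 1 - l)))
        * Y ^ (h' + M)
        = Y ^ g' * (∑ j ∈ range (L + 1), d j •
            (Y ^ j * (Y ^ M * (X * Y ^ 1 - Y ^ 1 * X) * Y ^ M) * Y ^ (L - j))) * Y ^ h' := by
      rw [parts (L + 1) (fun l => Y ^ l * X * Y ^ (L + 1 - l)), hdlast, zero_smul, zero_add]
      rw [pow_add Y g' M, add_comm h' M, pow_add Y M h']
      have e1 : ∀ (y z : A) (F : ℕ → A), y * (∑ j ∈ range (L + 1), d j • F j) * z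
          = ∑ j ∈ range (L + 1), d j • (y * F j * z) := by
        intro y z F
        rw [mul_sum, sum_mul]
        refine sum_congr rfl fun j _ => ?_
        rw [mul_smul_comm, smul_mul_assoc]
      rw [e1, e1]
      refine sum_congr rfl fun j hj => ?_
      have hj' : j ≤ L := Nat.lt_succ_iff.mp (mem_range.mp hj)
      congr 1
      have q1 : L + 1 - j = (L - j) + 1 := by omega
      have q2 : L + 1 - (j + 1) = L - j := by omega
      rw [q1, q2]
      have c1 : Y ^ M * Y ^ j = Y ^ j * Y ^ M := by rw [← pow_add, ← pow_add, add_comm]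
      have c2 : Y ^ (L - j) * Y ^ M = Y ^ M * Y ^ (L - j) := by
        rw [← pow_add, ← pow_add, add_comm]
      have c3 : Y ^ (j + 1) = Y ^ j * Y := pow_succ _ _
      have c4 : Y ^ (L - j + 1) = Y * Y ^ (L - j) := pow_succ' _ _
      rw [c3, c4, pow_one]
      calc Y ^ g' * Y ^ M * (Y ^ j * X * (Y * Y ^ (L - j)) - Y ^ j * Y * X * Y ^ (L - j))
            * (Y ^ M * Y ^ h')
          = Y ^ g' * (Y ^ M * Y ^ j) * (X * Y - Y * X) * (Y ^ (L - j) * Y ^ M) * Y ^ h' := by
            noncomm_ring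
        _ = Y ^ g' * (Y ^ j * Y ^ M) * (X * Y - Y * X) * (Y ^ M * Y ^ (L - j)) * Y ^ h' := by
            rw [c1, c2]
        _ = _ := by noncomm_ring
    rw [e]
    have key := ih L d hmom (Y ^ M * (X * Y ^ 1 - Y ^ 1 * X) * Y ^ M) g' h' hg' hh'
    refine key.trans ?_
    -- l1 norm of d
    set C : ℝ := ∑ l ∈ range (L + 1 + 1), |c l| with hC
    have hC0 : 0 ≤ C := sum_nonneg fun _ _ => abs_nonneg _
    have hdj : ∀ j ∈ range (L + 1), |d j| ≤ C := by
      intro j hj
      refine (abs_sum_le_sum_abs _ _).trans ?_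
      refine sum_le_sum_of_subset_of_nonneg ?_ fun _ _ _ => abs_nonneg _
      intro i hi
      rw [mem_range] at *
      omega
    have hd1 : ∑ j ∈ range (L + 1), |d j| ≤ (L + 1 : ℝ) * C := by
      refine (sum_le_sum hdj).trans ?_
      rw [sum_const, card_range, nsmul_eq_mul]
      push_cast
      exact le_refl _
    have hX : norm (Y ^ M * (X * Y ^ 1 - Y ^ 1 * X) * Y ^ M) ≤ 2 * sl Y M * norm X := by
      have := nrm_comm_ctx hY 1 M X
      simpa using this
    have hpow : (2 * (L : ℝ) * sl Y M) ^ m ≤ (2 * ((L + 1 : ℕ) : ℝ) * sl Y M) ^ m := by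
      refine pow_le_pow_left₀ (by positivity) ?_ m
      push_cast
      nlinarith
    calc (∑ j ∈ range (L + 1), |d j|) * (2 * (L : ℝ) * sl Y M) ^ m
          * norm (Y ^ M * (X * Y ^ 1 - Y ^ 1 * X) * Y ^ M)
        ≤ ((L + 1 : ℝ) * C) * (2 * ((L + 1 : ℕ) : ℝ) * sl Y M) ^ m
          * (2 * sl Y M * norm X) := by
          refine mul_le_mul (mul_le_mul hd1 hpow (by positivity) (by positivity)) hX
            (norm_nonneg _) (by positivity)
      _ = C * (2 * ((L + 1 : ℕ) : ℝ) * sl Y M) ^ (m + 1) * norm X := by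
          push_cast
          ring

/-- power moments give binomial moments -/
theorem choose_moments {m Λ : ℕ} {c : ℕ → ℝ}
    (hc : ∀ i < m, ∑ l ∈ range (Λ + 1), c l * (l : ℝ) ^ i = 0) :
    ∀ i < m, ∑ l ∈ range (Λ + 1), c l * (l.choose i : ℝ) = 0 := by
  -- any polynomial of degree < m has vanishing moment
  have hp : ∀ p : Polynomial ℝ, p.natDegree < m →
      ∑ l ∈ range (Λ + 1), c l * p.eval (l : ℝ) = 0 := by
    intro p hp
    have e : ∀ l : ℕ, p.eval (l : ℝ) = ∑ i ∈ range (p.natDegree + 1), p.coeff i * (l : ℝ) ^ i :=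
      fun l => Polynomial.eval_eq_sum_range (l : ℝ)
    simp only [e, mul_sum]
    rw [sum_comm]
    refine sum_eq_zero fun i hi => ?_
    have hi' : i < m := lt_of_lt_of_le (mem_range.mp hi) hp
    have := hc i hi'
    calc ∑ l ∈ range (Λ + 1), c l * (p.coeff i * (l : ℝ) ^ i)
        = p.coeff i * ∑ l ∈ range (Λ + 1), c l * (l : ℝ) ^ i := by
          rw [mul_sum]; refine sum_congr rfl fun l _ => by ring
      _ = 0 := by rw [this, mul_zero]
  intro i hi
  have h1 := hp (descPochhammer ℝ i) (by rw [descPochhammer_natDegree]; exact hi)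
  have h2 : ∀ l : ℕ, (descPochhammer ℝ i).eval (l : ℝ) = (i.factorial : ℝ) * (l.choose i : ℝ) := by
    intro l
    rw [descPochhammer_eval_eq_descFactorial, Nat.descFactorial_eq_factorial_mul_choose]
    push_cast
    ring
  have h3 : (i.factorial : ℝ) ≠ 0 := Nat.cast_ne_zero.mpr (Nat.factorial_ne_zero i)
  have h4 : (i.factorial : ℝ) * ∑ l ∈ range (Λ + 1), c l * (l.choose i : ℝ) = 0 := by
    rw [mul_sum, ← h1]
    refine sum_congr rfl fun l _ => ?_
    rw [h2]
    ring
  exact (mul_eq_zero.mp h4).resolve_left h3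

end Vale.Agent.P321.H117
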