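import Vale.Agent.P321.H117.Word

/-!
# LB2, T-step, G2 (a3): the non-asymptotic T-step (helper117)
-/

namespace Vale.Agent.P321.H117

open Finset Vale.Agent.P321.H576 Vale.Agent.P321.H776

set_option linter.unusedSectionVars false

/-- `StCoarse` for nonnegative constants. -/
def StCoarseP : Prop :=
  ∀ (V : Type) [AddCommGroup V] [Module ℝ V] (p : Seminorm ℝ V) (B : Finset ℤ → V)
    {k m : ℕ} (d : Fin k → ℤ) (g : E k → Fin m → ℤ) (F Q G C L1 L2 : ℤ)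
    (l : Finset (Fin k) → ℕ) (w w' Lb : ℕ) (lp lm : ℤ → ℕ) (κ κ0 κP : ℝ),
    Gen d g F Q G → PR m l w w' Lb → Lab d g Q l w w' Lb lp lm → 4 * (Lb : ℤ) ≤ C → 1 ≤ C →
    Q ≤ L1 → Q ≤ L2 → 0 ≤ κ → 0 ≤ κ0 → 0 ≤ κP →
    KillE p B g C Q κ → Kill0 p B m C Q κ0 → KillP p B m Lb C Q F κP →
    p (∑ A ∈ (Icc (-L1) L2).powerset with A.card = 2 ∧ ¬ Fine F A, Dl B C lp lm A)
      ≤ 2 ^ (k ^ 2 * m + m + 4) * ((L1 : ℝ) + L2 + 1) * (k + 2) ^ 4 * (κ + κ0 + κP)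

variable {A : Type} [NormedRing A] [NormedAlgebra ℝ A]

/-- the word with labels `lab`, `2 Q + 1` cells -/
def XX (Y v : A) (C c0 Q : ℕ) (lab : ℤ → ℕ) : A :=
  seg (fun s => Y ^ C + ct Y v C c0 lab (Q : ℤ) s) 0 (2 * Q + 1)

theorem norm_ctx_le (h1 : ‖(1 : A)‖ ≤ 1) {Y v : A} (hY : ‖Y‖ ≤ 1) {M a b : ℕ} (ha : M ≤ a)
    (hb : M ≤ b) : ‖Y ^ a * v * Y ^ b‖ ≤ ‖Y ^ M * v * Y ^ M‖ := by
  obtain ⟨a', rfl⟩ := Nat.exists_eq_add_of_le ha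
  obtain ⟨b', rfl⟩ := Nat.exists_eq_add_of_le hb
  rw [add_comm M a', pow_add, pow_add]
  calc ‖Y ^ a' * Y ^ M * v * (Y ^ M * Y ^ b')‖ = ‖Y ^ a' * (Y ^ M * v * Y ^ M) * Y ^ b'‖ := by
        congr 1; noncomm_ring
    _ ≤ ‖Y ^ a'‖ * ‖Y ^ M * v * Y ^ M‖ * ‖Y ^ b'‖ := by
        refine (norm_mul_le _ _).trans ?_
        gcongr
        exact norm_mul_le _ _
    _ ≤ 1 * ‖Y ^ M * v * Y ^ M‖ * 1 := by
        gcongr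
        · exact norm_pow_le_one h1 hY _
        · exact norm_pow_le_one h1 hY _
    _ = _ := by ring

theorem norm_ct_le (h1 : ‖(1 : A)‖ ≤ 1) {Y v : A} (hY : ‖Y‖ ≤ 1) {C c0 M1 Lb : ℕ}
    (hc0 : M1 ≤ c0) (hc1 : c0 + Lb + 1 + M1 ≤ C) {e : ℝ} (he : ‖Y ^ M1 * v * Y ^ M1‖ ≤ e)
    {lab : ℤ → ℕ} (hlab : ∀ t, lab t ≤ Lb) (L1 : ℤ) (s : ℕ) :
    ‖ct Y v C c0 lab L1 s‖ ≤ e := by
  refine le_trans ?_ he
  have h2 := hlab ((s : ℤ) - L1)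
  exact norm_ctx_le h1 hY (by omega) (by omega)

theorem norm_ct_ctx_le (h1 : ‖(1 : A)‖ ≤ 1) {Y v : A} (hY : ‖Y‖ ≤ 1) {C c0 M : ℕ}
    {e2 : ℝ} (he2 : ‖Y ^ (C * M) * v * Y ^ (C * M)‖ ≤ e2)
    (lab : ℤ → ℕ) (L1 : ℤ) (s : ℕ) :
    ‖(Y ^ C) ^ M * ct Y v C c0 lab L1 s * (Y ^ C) ^ M‖ ≤ e2 := by
  refine le_trans (le_of_eq ?_) ((norm_ctx_le h1 hY (a := C * M + (c0 + lab ((s : ℤ) - L1)))
    (b := (C - 1 - (c0 + lab ((s : ℤ) - L1))) + C * M) (by omega) (by omega)).trans he2)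
  congr 1
  rw [ct, ← pow_mul]
  generalize c0 + lab ((s : ℤ) - L1) = a
  rw [pow_add, pow_add]
  noncomm_ring

theorem norm_cell_le (h1 : ‖(1 : A)‖ ≤ 1) {Y v : A} (hY : ‖Y‖ ≤ 1) (hYv : ‖Y + v‖ ≤ 1) {C c0 : ℕ}
    {lab : ℤ → ℕ} (hlab : ∀ t, c0 + lab t + 1 ≤ C) (L1 : ℤ) (s : ℕ) :
    ‖Y ^ C + ct Y v C c0 lab L1 s‖ ≤ 1 := by
  have h2 := hlab ((s : ℤ) - L1)
  rw [ct]
  generalize c0 + lab ((s : ℤ) - L1) = a at h2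
  have e : Y ^ C = Y ^ a * Y * Y ^ (C - 1 - a) := by
    rw [← pow_succ, ← pow_add]; congr 1; omega
  have e2 : Y ^ C + Y ^ a * v * Y ^ (C - 1 - a) = Y ^ a * (Y + v) * Y ^ (C - 1 - a) := by
    rw [e]; noncomm_ring
  rw [e2]
  calc ‖Y ^ a * (Y + v) * Y ^ (C - 1 - a)‖ ≤ ‖Y ^ a‖ * ‖Y + v‖ * ‖Y ^ (C - 1 - a)‖ := by
        refine (norm_mul_le _ _).trans ?_
        gcongr
        exact norm_mul_le _ _
    _ ≤ 1 * 1 * 1 := by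
        gcongr
        · exact norm_pow_le_one h1 hY _
        · exact norm_pow_le_one h1 hY _
    _ = 1 := by ring

theorem norm_XX_le (h1 : ‖(1 : A)‖ ≤ 1) {Y v : A} (hY : ‖Y‖ ≤ 1) (hYv : ‖Y + v‖ ≤ 1) {C c0 Q : ℕ}
    {lab : ℤ → ℕ} (hlab : ∀ t, c0 + lab t + 1 ≤ C) : ‖XX Y v C c0 Q lab‖ ≤ 1 := by
  rw [XX, ← seg_eq]
  exact norm_seg_le_one h1 _ _ _ fun t _ _ => norm_cell_le h1 hY hYv hlab _ _

/-- **The non-asymptotic T-step.** -/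
theorem tcore (hSF : StFine) (hSC : StCoarseP) (hSO : StOne)
    (h1 : ‖(1 : A)‖ ≤ 1) {Y v : A} (hY : ‖Y‖ ≤ 1) (hYv : ‖Y + v‖ ≤ 1)
    {k m : ℕ} {d : Fin k → ℤ} {g : E k → Fin m → ℤ} {F Q : ℕ} {G : ℤ}
    (hG : Gen d g (F : ℤ) (Q : ℤ) G)
    {l : Finset (Fin k) → ℕ} {w w' Lb : ℕ} (hP : PR m l w w' Lb)
    {C c0 M1 : ℕ} (hc0 : M1 ≤ c0) (hc1 : c0 + Lb + 1 + M1 ≤ C) (hC4 : 4 * Lb ≤ C)
    {e e2 : ℝ} (he0 : 0 ≤ e) (he : ‖Y ^ M1 * v * Y ^ M1‖ ≤ e)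
    (he2 : ‖Y ^ (C * F) * v * Y ^ (C * F)‖ ≤ e2)
    (Mi : ℕ) (hLe : (((2 * Mi + 1) * (2 * Q + 1) : ℕ) : ℝ) * e ≤ 1 / 2)
    {κ κ0 κP κ1 : ℝ} (hκ : 0 ≤ κ) (hκ0 : 0 ≤ κ0) (hκP : 0 ≤ κP)
    (hKE : ∀ AL AR : A, ‖AL‖ ≤ 1 → ‖AR‖ ≤ 1 → KillE (normSeminorm ℝ A)
      (BL AL AR Y v ((C : ℤ) * ((Q : ℤ) + Mi * (2 * Q + 1)) + c0)
        (C * ((2 * Mi + 1) * (2 * Q + 1)))) g (C : ℤ) (Q : ℤ) κ)
    (hK0 : ∀ AL AR : A, ‖AL‖ ≤ 1 → ‖AR‖ ≤ 1 → Kill0 (normSeminorm ℝ A)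
      (BL AL AR Y v ((C : ℤ) * ((Q : ℤ) + Mi * (2 * Q + 1)) + c0)
        (C * ((2 * Mi + 1) * (2 * Q + 1)))) m (C : ℤ) (Q : ℤ) κ0)
    (hKP : ∀ AL AR : A, ‖AL‖ ≤ 1 → ‖AR‖ ≤ 1 → KillP (normSeminorm ℝ A)
      (BL AL AR Y v ((C : ℤ) * ((Q : ℤ) + Mi * (2 * Q + 1)) + c0)
        (C * ((2 * Mi + 1) * (2 * Q + 1)))) m Lb (C : ℤ) (Q : ℤ) (F : ℤ) κP)
    (hK1 : ∀ x : ℤ, 4 * |x| ≤ (C : ℤ) * Q → ‖∑ n : Fin m → Bool, sg n •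
      BL 1 1 Y v ((C : ℤ) * (Q : ℤ) + c0) (C * (2 * Q + 1)) {x + (C : ℤ) * Z n}‖ ≤ κ1) :
    ∃ lp lm : ℤ → ℕ, (∀ t, lp t ≤ Lb) ∧ (∀ t, lm t ≤ Lb) ∧ lp 0 = w ∧ lm 0 = w' ∧
      ‖XX Y v C c0 Q lp - (Y ^ C) ^ (2 * Q + 1)‖ ≤ (2 * Q + 1 : ℕ) * e ∧
      ‖XX Y v C c0 Q lm - XX Y v C c0 Q lp‖
        ≤ 2 ^ (k ^ 2 * m + 1) * κ1 + 4 * ((2 * Q + 1 : ℕ) * e) ^ 2 ∧
      ∀ M : ℕ, Mi + 1 ≤ M →
        ‖XX Y v C c0 Q lp ^ M * (XX Y v C c0 Q lm - XX Y v C c0 Q lp) * XX Y v C c0 Q lp ^ M‖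
          ≤ 2 ^ (k ^ 2 * m + 1) * (8 * (F : ℝ)) ^ 3 * κ
            + 2 ^ (k ^ 2 * m + m + 4) * (((2 * Mi + 1) * (2 * Q + 1) : ℕ) : ℝ) * (k + 2) ^ 4
              * (κ + κ0 + κP)
            + 2 * (((2 * Mi + 1) * (2 * Q + 1) : ℕ) : ℝ) ^ 3
              * (e ^ 2 * (e2 + (2 * Q + 1 : ℕ) * e ^ 2))
            + 4 * ((((2 * Mi + 1) * (2 * Q + 1) : ℕ) : ℝ) * e) ^ 4 := by
  classical
  obtain ⟨lp, lm, hLab, hper, hlm, hp0, hm0⟩ := exists_lab hG hP.hl hP.hw hP.hw'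
  have hlp' : ∀ t, lp t ≤ Lb := fun t => (hLab.lb t).1
  have hlm' : ∀ t, lm t ≤ Lb := fun t => (hLab.lb t).2
  have hlpC : ∀ t, c0 + lp t + 1 ≤ C := fun t => by have := hlp' t; omega
  have hlmC : ∀ t, c0 + lm t + 1 ≤ C := fun t => by have := hlm' t; omega
  have hC1 : (1 : ℤ) ≤ (C : ℤ) := by have := hlpC 0; omega
  have hC4' : 4 * (Lb : ℤ) ≤ (C : ℤ) := by exact_mod_cast hC4
  have hQC : ‖Y ^ C‖ ≤ 1 := norm_pow_le_one h1 hY C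
  have hn1 : (2 * Q + 1 : ℕ) ≤ (2 * Mi + 1) * (2 * Q + 1) := by
    nlinarith [Nat.zero_le Mi]
  have hLe1 : ((2 * Q + 1 : ℕ) : ℝ) * e ≤ 1 / 2 := by
    refine le_trans ?_ hLe
    exact mul_le_mul_of_nonneg_right (by exact_mod_cast hn1) he0
  have he2' : 0 ≤ e2 := (norm_nonneg _).trans he2
  refine ⟨lp, lm, hlp', hlm', hp0, hm0, ?_, ?_, ?_⟩
  · -- near
    rw [XX, ← seg_eq]
    exact seg_sub_pow h1 hQC _ (fun t _ _ => norm_ct_le h1 hY hc0 hc1 he hlp' _ _) he0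
      (fun t _ _ => norm_cell_le h1 hY hYv hlpC _ _)
  · -- no context
    have h2 := one_split h1 hY (L1 := (Q : ℤ)) (L2 := (Q : ℤ)) (L := 2 * Q + 1)
      (by push_cast; ring) hlpC hlmC
      (fun s _ => norm_ct_le h1 hY hc0 hc1 he hlp' _ s)
      (fun s _ => norm_ct_le h1 hY hc0 hc1 he hlm' _ s) he0 hLe1
    refine h2.trans (add_le_add ?_ le_rfl)
    exact hSO A (normSeminorm ℝ A) (BL 1 1 Y v ((C : ℤ) * (Q : ℤ) + c0) (C * (2 * Q + 1)))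
      d g (F : ℤ) (Q : ℤ) G (C : ℤ) (Q : ℤ) (Q : ℤ) l w w' Lb lp lm κ1 hG hLab hC4' hC1
      le_rfl le_rfl hK1
  · -- with context
    intro M hM
    obtain ⟨M', rfl⟩ := Nat.exists_eq_add_of_le hM
    set X := XX Y v C c0 Q lp with hX
    set X' := XX Y v C c0 Q lm with hX'
    have hXn : ‖X‖ ≤ 1 := norm_XX_le h1 hY hYv hlpC
    -- reduce to `M = Mi + 1`
    have hred : ‖X ^ (Mi + 1 + M') * (X' - X) * X ^ (Mi + 1 + M')‖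
        ≤ ‖X * (X ^ Mi * (X' - X) * X ^ Mi) * X‖ := by
      have e1 : X ^ (Mi + 1 + M') * (X' - X) * X ^ (Mi + 1 + M')
          = X ^ M' * (X * (X ^ Mi * (X' - X) * X ^ Mi) * X) * X ^ M' := by
        have a1 : X ^ (Mi + 1 + M') = X ^ M' * X * X ^ Mi := by
          rw [← pow_succ, ← pow_add]; congr 1; ring
        have a2 : X ^ (Mi + 1 + M') = X ^ Mi * X * X ^ M' := by
          rw [← pow_succ, ← pow_add]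
        calc X ^ (Mi + 1 + M') * (X' - X) * X ^ (Mi + 1 + M')
            = (X ^ M' * X * X ^ Mi) * (X' - X) * (X ^ Mi * X * X ^ M') := by rw [← a1, ← a2]
          _ = _ := by noncomm_ring
      rw [e1]
      calc _ ≤ ‖X ^ M'‖ * ‖X * (X ^ Mi * (X' - X) * X ^ Mi) * X‖ * ‖X ^ M'‖ := by
            refine (norm_mul_le _ _).trans ?_
            gcongr
            exact norm_mul_le _ _
        _ ≤ 1 * ‖X * (X ^ Mi * (X' - X) * X ^ Mi) * X‖ * 1 := by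
            gcongr
            · exact norm_pow_le_one h1 hXn _
            · exact norm_pow_le_one h1 hXn _
        _ = _ := by ring
    refine hred.trans ?_
    set L1 : ℤ := (Q : ℤ) + Mi * (2 * Q + 1) with hL1
    set L : ℕ := (2 * Mi + 1) * (2 * Q + 1) with hL
    have hLL : (L : ℤ) = L1 + L1 + 1 := by rw [hL, hL1]; push_cast; ring
    have hdiff := ctx_diff Y v C c0 Q hper hlm Mi
    rw [← hL1, ← hL] at hdiff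
    have hdiff' : X ^ Mi * (X' - X) * X ^ Mi
        = seg (fun s => Y ^ C + ct Y v C c0 lm L1 s) 0 L
          - seg (fun s => Y ^ C + ct Y v C c0 lp L1 s) 0 L := hdiff.symm
    rw [hdiff']
    have hFQ : F ≤ 2 * Q + 1 := by
      have h3 := hG.FQ
      have h4 : 16 * F ≤ Q := by exact_mod_cast h3
      omega
    have hXseg : X = H776.seg (fun s => Y ^ C + ct Y v C c0 lp (Q : ℤ) s) 0 (2 * Q + 1) := by
      rw [hX, XX, seg_eq]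
    have hleft : ∀ (lab : ℤ → ℕ), (∀ t, lab t ≤ Lb) → ∀ s,
        ‖X * (Y ^ C) ^ s * ct Y v C c0 lab L1 s * (Y ^ C) ^ F‖
          ≤ e2 + (2 * Q + 1 : ℕ) * e ^ 2 := by
      intro lab hlab s
      rw [hXseg]
      exact ctx_left h1 hQC _ (fun t _ _ => norm_ct_le h1 hY hc0 hc1 he hlp' _ _) he0
        (fun t _ _ => norm_cell_le h1 hY hYv hlpC _ _) hFQ
        (norm_ct_le h1 hY hc0 hc1 he hlab _ _) (norm_ct_ctx_le h1 hY he2 _ _ _) s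
    have hright : ∀ (lab : ℤ → ℕ), (∀ t, lab t ≤ Lb) → ∀ s,
        ‖(Y ^ C) ^ F * ct Y v C c0 lab L1 s * (Y ^ C) ^ (L - 1 - s) * X‖
          ≤ e2 + (2 * Q + 1 : ℕ) * e ^ 2 := by
      intro lab hlab s
      rw [hXseg]
      exact ctx_right h1 hQC _ (fun t _ _ => norm_ct_le h1 hY hc0 hc1 he hlp' _ _) he0
        (fun t _ _ => norm_cell_le h1 hY hYv hlpC _ _) hFQ
        (norm_ct_le h1 hY hc0 hc1 he hlab _ _) (norm_ct_ctx_le h1 hY he2 _ _ _) (L - 1 - s)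
    have he'0 : 0 ≤ e2 + (2 * Q + 1 : ℕ) * e ^ 2 := by positivity
    have main := core_split h1 hY X X hXn hXn (L1 := L1) (L2 := L1) (L := L) (F := F) hLL hlpC hlmC
      (fun s _ => norm_ct_le h1 hY hc0 hc1 he hlp' _ s)
      (fun s _ => norm_ct_le h1 hY hc0 hc1 he hlm' _ s) he0 he'0 hLe
      (fun s _ => ⟨hleft lp hlp' s, hleft lm hlm' s⟩)
      (fun s _ => ⟨hright lp hlp' s, hright lm hlm' s⟩)
    refine main.trans ?_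
    have hQL : (Q : ℤ) ≤ L1 := by
      rw [hL1]
      have : (0 : ℤ) ≤ Mi * (2 * Q + 1) := by positivity
      linarith
    have hb1 := hSF A (normSeminorm ℝ A) (BL X X Y v ((C : ℤ) * L1 + c0) (C * L))
      d g (F : ℤ) (Q : ℤ) G (C : ℤ) L1 L1 l w w' Lb lp lm κ hG hLab hC4' hC1 hQL hQL
      (hKE X X hXn hXn)
    have hb2 := hSC A (normSeminorm ℝ A) (BL X X Y v ((C : ℤ) * L1 + c0) (C * L))
      d g (F : ℤ) (Q : ℤ) G (C : ℤ) L1 L1 l w w' Lb lp lm κ κ0 κP hG hP hLab hC4' hC1 hQL hQL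
      hκ hκ0 hκP (hKE X X hXn hXn) (hK0 X X hXn hXn) (hKP X X hXn hXn)
    have hLr : (L1 : ℝ) + L1 + 1 = (L : ℝ) := by
      have : ((L1 + L1 + 1 : ℤ) : ℝ) = ((L : ℤ) : ℝ) := by rw [hLL]
      push_cast at this
      exact this
    rw [hLr] at hb2
    have hFr : ((F : ℤ) : ℝ) = (F : ℝ) := by norm_cast
    rw [hFr] at hb1
    refine add_le_add (add_le_add (add_le_add hb1 hb2) le_rfl) le_rfl

end Vale.Agent.P321.H117
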