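import Vale.Agent.P321.H117.TCoreS
import Vale.Agent.P321.H535.AsmSpec

/-!
# LB2: 535's literal `TCore` (helper117)
-/

namespace Vale.Agent.P321.LB2

theorem tCore : TCore := tCoreS

end Vale.Agent.P321.LB2
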