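import Vale.Agent.P321.H117.TCore
import Vale.Agent.P321.H117.Lists
import Vale.Agent.P321.H576.Fine
import Vale.Agent.P321.H576.Pos
import Vale.Agent.P321.H834.Coarse
import Vale.Agent.P321.H181.TSpec

/-!
# LB2, T-step: `TCore` for strings (helper117)
-/

namespace Vale.Agent.P321.LB2

open Finset

/-- **Non-asymptotic T-step** (535's `TCore` with `32 * (m * M0) ≤ C * Q` and the numerical factors
`2 ^ (k ^ 2 * m + 4)`, `2 ^ (k ^ 2 * m + m + 8)`). -/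
def TCoreS : Prop :=
  ∀ (q : ℝ), 0 ≤ q → q ≤ 1 → ∀ (u v : List Bool), u ≠ v → v.length = u.length →
  ∀ (k m : ℕ) (d : Fin k → ℤ) (g : H576.E k → Fin m → ℤ) (F Q G : ℕ)
    (l : Finset (Fin k) → ℕ) (w w' Lb : ℕ),
    H576.Gen d g (F : ℤ) (Q : ℤ) (G : ℤ) → H576.PR m l w w' Lb → w ≠ w' →
  ∀ (c0 C Mi Mo : ℕ), 2 * c0 + Lb + 1 ≤ C → 4 * Lb ≤ C → 1 ≤ Mi → 1 ≤ Mo →
  ∀ (E1 E2 sE s0 sP : ℝ) (ME M0 MP : ℕ),
    ‖W q u ^ c0 * (W q v - W q u) * W q u ^ c0‖ ≤ E1 →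
    ‖W q u ^ (C * F) * (W q v - W q u) * W q u ^ (C * F)‖ ≤ E2 →
    (((2 * Mi + 1) * (2 * Q + 1) : ℕ) : ℝ) * E1 ≤ 1 / 2 →
    m * ME ≤ C * (Mi * Q) → 32 * (m * M0) ≤ C * Q → 4 * (m * MP) ≤ C * F →
    ‖(1 - W q u) * W q u ^ ME‖ ≤ sE → ‖(1 - W q u) * W q u ^ M0‖ ≤ s0 →
    ‖(1 - W q u) * W q u ^ MP‖ ≤ sP →
  ∃ (x x' : List Bool), x ≠ x' ∧ x'.length = x.length ∧
    x.length = C * (2 * Q + 1) * u.length ∧
    ‖W q x - W q u ^ (C * (2 * Q + 1))‖ ≤ (2 * Q + 1) * E1 ∧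
    ‖W q x' - W q x‖ ≤ 2 ^ (k ^ 2 * m + 4) * (2 * (C * 3 ^ m) * s0) ^ m
      + 4 * ((2 * Q + 1) * E1) ^ 2 ∧
    ‖W q x ^ (Mi + Mo) * (W q x' - W q x) * W q x ^ (Mi + Mo)‖ ≤
      2 ^ (k ^ 2 * m + m + 8) * (8 * F) ^ 3 * ((2 * Mi + 1) * (2 * Q + 1)) * (k + 2) ^ 4
        * ((2 * (C * G) * sE) ^ m + (2 * (C * 3 ^ m) * s0) ^ m + (2 * Lb * sP) ^ m)
      + 2 * ((2 * Mi + 1) * (2 * Q + 1)) ^ 3 * (E1 ^ 2 * (E2 + Mo * (2 * Q + 1) * E1 ^ 2))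
      + 4 * ((2 * Mi + 1) * (2 * Q + 1) * E1) ^ 4

noncomputable scoped instance instNO : NormOneClass Al := ⟨MA.l1_one⟩

theorem stCoarseP : H117.StCoarseP := by
  intro V _ _ p B k m d g F Q G C L1 L2 l w w' Lb lp lm κ κ0 κP hG hP hL hC hC1 hL1 hL2 _ _ hκP
    hKE hK0 hKP
  exact H834.coarse V p B d g F Q G C L1 L2 l w w' Lb lp lm κ κ0 κP hG hP hL hC hC1 hL1 hL2
    hKE hK0 hKP hκP

/-- 776's `BL` in 576's form -/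
theorem BL_eq {A : Type} [NormedRing A] [NormedAlgebra ℝ A] (AL AR Y v : A) (o : ℤ) (n : ℕ) (S : Finset ℤ) :
    H776.BL AL AR Y v o n S = AL * H776.seg (H576.wb Y v o S) 0 n * AR := by
  rw [H776.BL, H776.seg_eq]
  rfl

/-- the numerical end of the T-step -/
theorem fin_num {k m : ℕ} {F Q Mi Mo aE a0 aP bE b0 bP E1 E2 : ℝ} (hF : 3 ≤ F) (hQ : 0 ≤ Q)
    (hMi : 0 ≤ Mi) (hMo : 1 ≤ Mo) (haE : 0 ≤ aE) (ha0 : 0 ≤ a0) (haP : 0 ≤ aP)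
    (hE : aE ≤ bE) (h0 : a0 ≤ b0) (hP : aP ≤ bP) :
    2 ^ (k ^ 2 * m + 1) * (8 * F) ^ 3 * (8 * aE)
      + 2 ^ (k ^ 2 * m + m + 4) * ((2 * Mi + 1) * (2 * Q + 1)) * (k + 2) ^ 4
        * (8 * aE + 8 * a0 + 8 * aP)
      + 2 * ((2 * Mi + 1) * (2 * Q + 1)) ^ 3 * (E1 ^ 2 * (E2 + (2 * Q + 1) * E1 ^ 2))
      + 4 * ((2 * Mi + 1) * (2 * Q + 1) * E1) ^ 4
    ≤ 2 ^ (k ^ 2 * m + m + 8) * (8 * F) ^ 3 * ((2 * Mi + 1) * (2 * Q + 1)) * (k + 2) ^ 4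
        * (bE + b0 + bP)
      + 2 * ((2 * Mi + 1) * (2 * Q + 1)) ^ 3 * (E1 ^ 2 * (E2 + Mo * (2 * Q + 1) * E1 ^ 2))
      + 4 * ((2 * Mi + 1) * (2 * Q + 1) * E1) ^ 4 := by
  set L : ℝ := (2 * Mi + 1) * (2 * Q + 1) with hL
  have hL1 : 1 ≤ L := by
    rw [hL]
    nlinarith
  have hF1 : (1 : ℝ) ≤ (8 * F) ^ 3 := one_le_pow₀ (by linarith)
  have hK1 : (1 : ℝ) ≤ ((k : ℝ) + 2) ^ 4 := one_le_pow₀ (by
    have : (0 : ℝ) ≤ k := Nat.cast_nonneg k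
    linarith)
  have hpm : (1 : ℝ) ≤ 2 ^ m := one_le_pow₀ (by norm_num)
  have q1 : (2 : ℝ) ^ (k ^ 2 * m + 1) = 2 ^ (k ^ 2 * m) * 2 := by rw [pow_add, pow_one]
  have q2 : (2 : ℝ) ^ (k ^ 2 * m + m + 4) = 2 ^ (k ^ 2 * m) * 2 ^ m * 16 := by
    rw [pow_add, pow_add]; norm_num
  have q3 : (2 : ℝ) ^ (k ^ 2 * m + m + 8) = 2 ^ (k ^ 2 * m) * 2 ^ m * 256 := by
    rw [pow_add, pow_add]; norm_num
  rw [q1, q2, q3]
  have hp0' : (0 : ℝ) < 2 ^ (k ^ 2 * m) := by positivity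
  generalize (2 : ℝ) ^ (k ^ 2 * m) = p at hp0' ⊢
  generalize (2 : ℝ) ^ m = pm at hpm ⊢
  generalize ((k : ℝ) + 2) ^ 4 = K at hK1 ⊢
  generalize (8 * F) ^ 3 = F3 at hF1 ⊢
  have hT0 : 0 ≤ aE + a0 + aP := by positivity
  have hTT : aE + a0 + aP ≤ bE + b0 + bP := by linarith
  have s1 : p * 2 * F3 * (8 * aE) ≤ (p * pm * 16) * F3 * (L * K) * (aE + a0 + aP) := by
    have z1 : p * 2 * F3 * (8 * aE) = (p * 1 * 16) * F3 * (1 * 1) * aE := by ring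
    rw [z1]
    have hT1 : aE ≤ aE + a0 + aP := by linarith
    gcongr
  have s2 : p * pm * 16 * L * K * (8 * aE + 8 * a0 + 8 * aP)
      ≤ (p * pm * 128) * F3 * (L * K) * (aE + a0 + aP) := by
    have z1 : p * pm * 16 * L * K * (8 * aE + 8 * a0 + 8 * aP)
        = (p * pm * 128) * 1 * (L * K) * (aE + a0 + aP) := by ring
    rw [z1]
    gcongr
  have s3 : (p * pm * 16) * F3 * (L * K) * (aE + a0 + aP)
      + (p * pm * 128) * F3 * (L * K) * (aE + a0 + aP)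
      ≤ p * pm * 256 * F3 * L * K * (bE + b0 + bP) := by
    have z1 : (p * pm * 16) * F3 * (L * K) * (aE + a0 + aP)
      + (p * pm * 128) * F3 * (L * K) * (aE + a0 + aP)
      = p * pm * 144 * F3 * L * K * (aE + a0 + aP) := by ring
    rw [z1]
    have : (0 : ℝ) ≤ bE + b0 + bP := hT0.trans hTT
    gcongr
    norm_num
  have s4 : 2 * L ^ 3 * (E1 ^ 2 * (E2 + (2 * Q + 1) * E1 ^ 2))
      ≤ 2 * L ^ 3 * (E1 ^ 2 * (E2 + Mo * (2 * Q + 1) * E1 ^ 2)) := by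
    have : (2 * Q + 1) * E1 ^ 2 ≤ Mo * (2 * Q + 1) * E1 ^ 2 := by
      have h7 : 0 ≤ (2 * Q + 1) * E1 ^ 2 := by positivity
      nlinarith
    gcongr
  linarith

section

variable {A : Type} [NormedRing A] [NormedAlgebra ℝ A] [NormOneClass A]

/-- the four kills with the margins of the T-step -/
theorem kills {Y Dv : A} (hY : ‖Y‖ ≤ 1) (hv : ‖Dv‖ ≤ 2)
    {k m : ℕ} {d : Fin k → ℤ} {g : H576.E k → Fin m → ℤ} {F Q G : ℕ}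
    (hG : H576.Gen d g (F : ℤ) (Q : ℤ) (G : ℤ)) {Lb c0 C Mi ME M0 MP : ℕ} (hLb1 : 1 ≤ Lb)
    (hC : 2 * c0 + Lb + 1 ≤ C) (hC4 : 4 * Lb ≤ C) (hMi : 1 ≤ Mi)
    (hME : m * ME ≤ C * (Mi * Q)) (hM0 : 32 * (m * M0) ≤ C * Q) (hMP : 4 * (m * MP) ≤ C * F) :
    (∀ AL AR : A, ‖AL‖ ≤ 1 → ‖AR‖ ≤ 1 → H576.KillE (normSeminorm ℝ A)
      (H776.BL AL AR Y Dv ((C : ℤ) * ((Q : ℤ) + Mi * (2 * Q + 1)) + c0)
        (C * ((2 * Mi + 1) * (2 * Q + 1)))) g (C : ℤ) (Q : ℤ)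
        (8 * (2 * (C * G) * H117.sl Y ME) ^ m)) ∧
    (∀ AL AR : A, ‖AL‖ ≤ 1 → ‖AR‖ ≤ 1 → H576.Kill0 (normSeminorm ℝ A)
      (H776.BL AL AR Y Dv ((C : ℤ) * ((Q : ℤ) + Mi * (2 * Q + 1)) + c0)
        (C * ((2 * Mi + 1) * (2 * Q + 1)))) m (C : ℤ) (Q : ℤ)
        (8 * (2 * (C * 3 ^ m) * H117.sl Y M0) ^ m)) ∧
    (∀ AL AR : A, ‖AL‖ ≤ 1 → ‖AR‖ ≤ 1 → H576.KillP (normSeminorm ℝ A)
      (H776.BL AL AR Y Dv ((C : ℤ) * ((Q : ℤ) + Mi * (2 * Q + 1)) + c0)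
        (C * ((2 * Mi + 1) * (2 * Q + 1)))) m Lb (C : ℤ) (Q : ℤ) (F : ℤ)
        (8 * (2 * Lb * H117.sl Y MP) ^ m)) ∧
    (∀ x : ℤ, 4 * |x| ≤ (C : ℤ) * Q → ‖∑ n : Fin m → Bool, H576.sg n •
      H776.BL 1 1 Y Dv ((C : ℤ) * (Q : ℤ) + c0) (C * (2 * Q + 1)) {x + (C : ℤ) * H576.Z n}‖
        ≤ 8 * (2 * (C * 3 ^ m) * H117.sl Y M0) ^ m) := by
  have hm1 : 1 ≤ m := hG.m1
  have hF3 : (3 : ℤ) ^ m ≤ F := hG.F3
  have h3m : (3 : ℤ) ≤ 3 ^ m := by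
    calc (3 : ℤ) = 3 ^ 1 := by norm_num
      _ ≤ 3 ^ m := pow_le_pow_right₀ (by norm_num) hm1
  have hFQ : 16 * (F : ℤ) ≤ Q := hG.FQ
  have hk3 := hG.k3
  have hC4' : (4 : ℤ) ≤ C := by
    have h5 : 4 ≤ C := by omega
    exact_mod_cast h5
  have hMEz : (m : ℤ) * ME ≤ C * (Mi * Q) := by exact_mod_cast hME
  have hM0z : 32 * ((m : ℤ) * M0) ≤ C * Q := by exact_mod_cast hM0
  have hMPz : 4 * ((m : ℤ) * MP) ≤ C * F := by exact_mod_cast hMP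
  have hMiz : (1 : ℤ) ≤ Mi := by exact_mod_cast hMi
  have hc0z : (2 : ℤ) * c0 + Lb + 1 ≤ C := by exact_mod_cast hC
  have hc00 : (0 : ℤ) ≤ c0 := by positivity
  have hLb0 : (0 : ℤ) ≤ Lb := by positivity
  have hLb4 : 4 * (Lb : ℤ) ≤ C := by exact_mod_cast hC4
  have hQ0 : (48 : ℤ) ≤ Q := by linarith
  have hCQ : (C : ℤ) * (16 * F) ≤ C * Q := mul_le_mul_of_nonneg_left hFQ (by linarith)
  have hC3 : (C : ℤ) * 3 ^ m ≤ C * F := mul_le_mul_of_nonneg_left hF3 (by linarith)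
  have hmGQ : 16 * ((m : ℤ) * G) ≤ Q := by
    have h5 := hG.GQ
    have h6 : (1 : ℤ) ≤ (k : ℤ) ^ 2 := one_le_pow₀ (by exact_mod_cast (by omega : 1 ≤ k))
    have h7 : (0 : ℤ) ≤ (m : ℤ) * G := by positivity
    nlinarith
  have hCmG : (m : ℤ) * (C * G) * 16 ≤ C * Q := by
    have := mul_le_mul_of_nonneg_left hmGQ (show (0 : ℤ) ≤ C by linarith)
    linarith
  have hCMQ : (C : ℤ) * Q ≤ C * (Mi * Q) := by
    have : (Q : ℤ) ≤ Mi * Q := by nlinarith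
    exact mul_le_mul_of_nonneg_left this (by linarith)
  have hCQ48 : (C : ℤ) * 48 ≤ C * Q := mul_le_mul_of_nonneg_left hQ0 (by linarith)
  have hCMi : (0 : ℤ) ≤ (C : ℤ) * Mi := by positivity
  have hCF3 : (C : ℤ) * 3 ≤ C * F := mul_le_mul_of_nonneg_left (by linarith) (by linarith)
  have h1 : ‖(1 : A)‖ ≤ 1 := norm_one.le
  generalize ho : (C : ℤ) * ((Q : ℤ) + Mi * (2 * Q + 1)) + c0 = o
  generalize hn : C * ((2 * Mi + 1) * (2 * Q + 1)) = n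
  have ho' : o = (C : ℤ) * Q + 2 * (C * (Mi * Q)) + C * Mi + c0 := by rw [← ho]; ring
  have hn' : (n : ℤ) = 2 * (C * Q) + 4 * (C * (Mi * Q)) + 2 * (C * Mi) + C := by
    rw [← hn]; push_cast; ring
  refine ⟨fun AL AR hAL hAR => ?_, fun AL AR hAL hAR => ?_, fun AL AR hAL hAR => ?_,
    fun x hx => ?_⟩
  · have := H576.killE (m := m) (k := k) (C := (C : ℤ)) (Q := (Q : ℤ)) (G := (G : ℤ)) (M := ME)
      (o := o) (n := n) (fun S => BL_eq AL AR Y Dv o n S) hAL hAR hY hv hG.g0 hG.gG (by linarith)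
      (by rw [ho']; linarith) (by rw [ho', hn']; linarith)
    simpa using this
  · exact H576.kill0 (m := m) (C := C) (Q := (Q : ℤ)) (M := M0)
      (o := o) (n := n) (fun S => BL_eq AL AR Y Dv o n S) hAL hAR hY hv
      (by rw [ho']; linarith) (by rw [ho', hn']; linarith) (by linarith)
  · exact H576.killP (m := m) (C := C) (Q := (Q : ℤ)) (F := (F : ℤ)) (M := MP) (Lb := Lb)
      (o := o) (n := n) (fun S => BL_eq AL AR Y Dv o n S) hAL hAR hY hv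
      (by rw [ho']; linarith) (by rw [ho', hn']; linarith) (by linarith)
  · exact H576.killOne (m := m) (C := C) (Q := (Q : ℤ)) (M := M0)
      (o := (C : ℤ) * (Q : ℤ) + c0) (n := C * (2 * Q + 1))
      (fun S => BL_eq 1 1 Y Dv _ _ S) h1 h1 hY hv (by linarith)
      (by push_cast; linarith) x hx

/-- `tcore` with the kills inserted -/
theorem tcoreA {Y Dv : A} (hY : ‖Y‖ ≤ 1) (hv : ‖Dv‖ ≤ 2) (hYv : ‖Y + Dv‖ ≤ 1)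
    {k m : ℕ} {d : Fin k → ℤ} {g : H576.E k → Fin m → ℤ} {F Q G : ℕ}
    (hG : H576.Gen d g (F : ℤ) (Q : ℤ) (G : ℤ)) {l : Finset (Fin k) → ℕ} {w w' Lb : ℕ}
    (hP : H576.PR m l w w' Lb) (hww : w ≠ w') {c0 C Mi Mo : ℕ}
    (hC : 2 * c0 + Lb + 1 ≤ C) (hC4 : 4 * Lb ≤ C) (hMi : 1 ≤ Mi) (hMo : 1 ≤ Mo)
    {E1 E2 sE s0 sP : ℝ} {ME M0 MP : ℕ} (hE1 : ‖Y ^ c0 * Dv * Y ^ c0‖ ≤ E1)
    (hE2 : ‖Y ^ (C * F) * Dv * Y ^ (C * F)‖ ≤ E2)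
    (hLe : (((2 * Mi + 1) * (2 * Q + 1) : ℕ) : ℝ) * E1 ≤ 1 / 2)
    (hME : m * ME ≤ C * (Mi * Q)) (hM0 : 32 * (m * M0) ≤ C * Q) (hMP : 4 * (m * MP) ≤ C * F)
    (hsE : H117.sl Y ME ≤ sE) (hs0 : H117.sl Y M0 ≤ s0) (hsP : H117.sl Y MP ≤ sP) :
    ∃ lp lm : ℤ → ℕ, (∀ t, lp t ≤ Lb) ∧ (∀ t, lm t ≤ Lb) ∧ lp 0 = w ∧ lm 0 = w' ∧
      ‖H117.XX Y Dv C c0 Q lp - (Y ^ C) ^ (2 * Q + 1)‖ ≤ (2 * Q + 1) * E1 ∧
      ‖H117.XX Y Dv C c0 Q lm - H117.XX Y Dv C c0 Q lp‖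
        ≤ 2 ^ (k ^ 2 * m + 4) * (2 * (C * 3 ^ m) * s0) ^ m + 4 * ((2 * Q + 1) * E1) ^ 2 ∧
      ‖H117.XX Y Dv C c0 Q lp ^ (Mi + Mo)
          * (H117.XX Y Dv C c0 Q lm - H117.XX Y Dv C c0 Q lp)
          * H117.XX Y Dv C c0 Q lp ^ (Mi + Mo)‖ ≤
        2 ^ (k ^ 2 * m + m + 8) * (8 * F) ^ 3 * ((2 * Mi + 1) * (2 * Q + 1)) * (k + 2) ^ 4
          * ((2 * (C * G) * sE) ^ m + (2 * (C * 3 ^ m) * s0) ^ m + (2 * Lb * sP) ^ m)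
        + 2 * ((2 * Mi + 1) * (2 * Q + 1)) ^ 3 * (E1 ^ 2 * (E2 + Mo * (2 * Q + 1) * E1 ^ 2))
        + 4 * ((2 * Mi + 1) * (2 * Q + 1) * E1) ^ 4 := by
  have h1 : ‖(1 : A)‖ ≤ 1 := norm_one.le
  have hE10 : 0 ≤ E1 := (norm_nonneg _).trans hE1
  have hLb1 : 1 ≤ Lb := by
    have h4 := hP.hw
    have h5 := hP.hw'
    omega
  have hslE : 0 ≤ H117.sl Y ME := H117.sl_nonneg _ _
  have hsl0 : 0 ≤ H117.sl Y M0 := H117.sl_nonneg _ _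
  have hslP : 0 ≤ H117.sl Y MP := H117.sl_nonneg _ _
  have hF3 : (3 : ℝ) ≤ F := by
    have hF3 : (3 : ℤ) ^ m ≤ F := hG.F3
    have h3m : (3 : ℤ) ≤ 3 ^ m := by
      calc (3 : ℤ) = 3 ^ 1 := by norm_num
        _ ≤ 3 ^ m := pow_le_pow_right₀ (by norm_num) hG.m1
    exact_mod_cast (h3m.trans hF3)
  obtain ⟨kE, k0, kP, k1⟩ := kills hY hv hG hLb1 hC hC4 hMi hME hM0 hMP
  have kEn : 0 ≤ (2 * ((C : ℝ) * G) * H117.sl Y ME) ^ m := by positivity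
  have k0n : 0 ≤ (2 * ((C : ℝ) * 3 ^ m) * H117.sl Y M0) ^ m := by positivity
  have kPn : 0 ≤ (2 * (Lb : ℝ) * H117.sl Y MP) ^ m := by positivity
  have bE : (2 * ((C : ℝ) * G) * H117.sl Y ME) ^ m ≤ (2 * ((C : ℝ) * G) * sE) ^ m :=
    pow_le_pow_left₀ (by positivity) (mul_le_mul_of_nonneg_left hsE (by positivity)) m
  have b0 : (2 * ((C : ℝ) * 3 ^ m) * H117.sl Y M0) ^ m ≤ (2 * ((C : ℝ) * 3 ^ m) * s0) ^ m :=
    pow_le_pow_left₀ (by positivity) (mul_le_mul_of_nonneg_left hs0 (by positivity)) m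
  have bP : (2 * (Lb : ℝ) * H117.sl Y MP) ^ m ≤ (2 * (Lb : ℝ) * sP) ^ m :=
    pow_le_pow_left₀ (by positivity) (mul_le_mul_of_nonneg_left hsP (by positivity)) m
  have e2 : ((2 * Q + 1 : ℕ) : ℝ) = 2 * Q + 1 := by push_cast; ring
  have e3 : (((2 * Mi + 1) * (2 * Q + 1) : ℕ) : ℝ) = (2 * Mi + 1) * (2 * Q + 1) := by
    push_cast; ring
  obtain ⟨lp, lm, hlp, hlm, hp0, hm0, near, f0, f1⟩ := H117.tcore H576.stFine stCoarseP H576.stOne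
    h1 hY hYv (F := F) (Q := Q) hG hP (C := C) (c0 := c0) (M1 := c0) le_rfl (by omega) hC4
    hE10 hE1 hE2 Mi hLe (by linarith) (by linarith) (by linarith) kE k0 kP k1
  have f1' := f1 (Mi + Mo) (by omega)
  clear f1 kE k0 kP k1
  rw [e2] at near f0 f1'
  rw [e3] at f1'
  refine ⟨lp, lm, hlp, hlm, hp0, hm0, near, ?_, ?_⟩
  · refine f0.trans ?_
    have e1 : (2 : ℝ) ^ (k ^ 2 * m + 1) * (8 * (2 * (C * 3 ^ m) * H117.sl Y M0) ^ m)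
        = 2 ^ (k ^ 2 * m + 4) * (2 * (C * 3 ^ m) * H117.sl Y M0) ^ m := by
      rw [pow_add, pow_add]; ring
    rw [e1]
    have := mul_le_mul_of_nonneg_left b0 (show (0 : ℝ) ≤ 2 ^ (k ^ 2 * m + 4) by positivity)
    linarith
  · exact f1'.trans (fin_num hF3 (Nat.cast_nonneg Q) (Nat.cast_nonneg Mi)
      (by exact_mod_cast hMo) kEn k0n kPn bE b0 bP)

end

theorem tCoreS : TCoreS := by
  intro q hq0 hq1 u v huv hlen k m d g F Q G l w w' Lb hG hP hww c0 C Mi Mo hC hC4 hMi hMo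
    E1 E2 sE s0 sP ME M0 MP hE1 hE2 hLe hME hM0 hMP hsE hs0 hsP
  have hY : ‖W q u‖ ≤ 1 := (W_prob hq0 hq1 u).2.le
  have hZ : ‖W q v‖ ≤ 1 := (W_prob hq0 hq1 v).2.le
  have hYv : ‖W q u + (W q v - W q u)‖ ≤ 1 := by
    rw [add_sub_cancel]
    exact hZ
  have hv : ‖W q v - W q u‖ ≤ 2 := by
    refine (norm_sub_le _ _).trans ?_
    linarith
  obtain ⟨lp, lm, hlp, hlm, hp0, hm0, near, f0, f1⟩ := tcoreA hY hv hYv hG hP hww hC hC4 hMi hMo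
    hE1 hE2 hLe hME hM0 hMP hsE hs0 hsP
  have hlpC : ∀ t, c0 + lp t + 1 ≤ C := fun t => by have := hlp t; omega
  have hlmC : ∀ t, c0 + lm t + 1 ≤ C := fun t => by have := hlm t; omega
  have hx : ∀ i < 2 * Q + 1, (fun i : ℕ => c0 + lp ((i : ℤ) - Q)) (0 + i) + 1 ≤ C :=
    fun i _ => hlpC _
  have hx' : ∀ i < 2 * Q + 1, (fun i : ℕ => c0 + lm ((i : ℤ) - Q)) (0 + i) + 1 ≤ C :=
    fun i _ => hlmC _
  have hWx : W q (MA.sub u v (H117.cellsL C (fun i : ℕ => c0 + lp ((i : ℤ) - Q)) 0 (2 * Q + 1)))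
      = H117.XX (W q u) (W q v - W q u) C c0 Q lp := by
    rw [H117.W_sub_cellsL hx, H117.XX]
    rfl
  have hWx' : W q (MA.sub u v (H117.cellsL C (fun i : ℕ => c0 + lm ((i : ℤ) - Q)) 0 (2 * Q + 1)))
      = H117.XX (W q u) (W q v - W q u) C c0 Q lm := by
    rw [H117.W_sub_cellsL hx', H117.XX]
    rfl
  have hlx := H117.length_sub_cellsL (u := u) (v := v) hlen.symm (C := C)
    (lab := fun i : ℕ => c0 + lp ((i : ℤ) - Q)) (a := 0) (n := 2 * Q + 1) hx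
  have hlx' := H117.length_sub_cellsL (u := u) (v := v) hlen.symm (C := C)
    (lab := fun i : ℕ => c0 + lm ((i : ℤ) - Q)) (a := 0) (n := 2 * Q + 1) hx'
  refine ⟨_, _, ?_, hlx'.trans hlx.symm, hlx, ?_, ?_, ?_⟩
  · refine H117.sub_cellsL_ne hlen.symm huv hx hx' ⟨Q, by omega, ?_⟩
    have e0 : (((0 + Q : ℕ) : ℤ) - Q) = 0 := by simp
    simp only [e0, hp0, hm0]
    omega
  · rw [hWx, pow_mul]
    exact near
  · rw [hWx, hWx']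
    exact f0
  · rw [hWx, hWx']
    exact f1

end Vale.Agent.P321.LB2
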