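import Vale.Agent.P321.H776.Glue
import Vale.Agent.P321.H117.Labels

/-!
# LB2, T-step, G2 (a2): words with contexts as segments of cells (helper117)
-/

namespace Vale.Agent.P321.H117

open Finset

section

variable {A : Type*} [Ring A]

/-- a periodic segment is a power -/
theorem seg_periodic (f : ℕ → A) (p : ℕ) (h : ∀ i, f (i + p) = f i) (M a : ℕ) :
    seg f a (M * p) = seg f a p ^ M := by
  have hM : ∀ M i, f (i + M * p) = f i := by
    intro M
    induction M with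
    | zero => intro i; simp
    | succ M ih => intro i; rw [Nat.succ_mul, ← add_assoc, h, ih]
  induction M with
  | zero => simp
  | succ M ih =>
    rw [Nat.succ_mul, seg_add, ih, pow_succ]
    congr 1
    refine seg_congr fun i _ => ?_
    rw [show a + M * p + i = a + i + M * p by ring, hM]

end

section

open Vale.Agent.P321.H776

variable {A : Type} [NormedRing A] [NormedAlgebra ℝ A]

/-- the word `X` in the middle of `M` copies on both sides (labels `lp`, periodic) -/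
theorem ctx_same (Y v : A) (C c0 Q : ℕ) {lp : ℤ → ℕ} (hper : ∀ t, lp (t + (2 * (Q : ℤ) + 1)) = lp t)
    (M : ℕ) :
    seg (fun s => Y ^ C + ct Y v C c0 lp ((Q : ℤ) + M * (2 * Q + 1)) s) 0 ((2 * M + 1) * (2 * Q + 1))
      = seg (fun s => Y ^ C + ct Y v C c0 lp (Q : ℤ) s) 0 (2 * Q + 1) ^ (2 * M + 1) := by
  have hperN : ∀ (n : ℕ) (t : ℤ), lp (t + n * (2 * (Q : ℤ) + 1)) = lp t := by
    intro n
    induction n with
    | zero => intro t; simp
    | succ n ih =>
      intro t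
      rw [show t + ((n + 1 : ℕ) : ℤ) * (2 * (Q : ℤ) + 1) = t + n * (2 * (Q : ℤ) + 1)
        + (2 * (Q : ℤ) + 1) by push_cast; ring, hper, ih]
  rw [seg_periodic]
  · congr 1
    refine seg_congr fun i hi => ?_
    have : lp (((0 + i : ℕ) : ℤ) - ((Q : ℤ) + M * (2 * Q + 1))) = lp (((0 + i : ℕ) : ℤ) - Q) := by
      rw [← hperN M (((0 + i : ℕ) : ℤ) - ((Q : ℤ) + M * (2 * Q + 1)))]
      congr 1
      ring
    simp only [ct, this]
  · intro i
    have : lp (((i + (2 * Q + 1) : ℕ) : ℤ) - ((Q : ℤ) + M * (2 * Q + 1)))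
        = lp ((i : ℤ) - ((Q : ℤ) + M * (2 * Q + 1))) := by
      rw [← hper ((i : ℤ) - ((Q : ℤ) + M * (2 * Q + 1)))]
      congr 1
      push_cast
      ring
    simp only [ct, this]

/-- the word `X'` in the middle of `M` copies of `X` on both sides -/
theorem ctx_mid (Y v : A) (C c0 Q : ℕ) {lp lm : ℤ → ℕ}
    (hper : ∀ t, lp (t + (2 * (Q : ℤ) + 1)) = lp t) (hlm : ∀ t, (Q : ℤ) < |t| → lm t = lp t)
    (M : ℕ) :
    seg (fun s => Y ^ C + ct Y v C c0 lm ((Q : ℤ) + M * (2 * Q + 1)) s) 0 ((2 * M + 1) * (2 * Q + 1))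
      = seg (fun s => Y ^ C + ct Y v C c0 lp (Q : ℤ) s) 0 (2 * Q + 1) ^ M
        * seg (fun s => Y ^ C + ct Y v C c0 lm (Q : ℤ) s) 0 (2 * Q + 1)
        * seg (fun s => Y ^ C + ct Y v C c0 lp (Q : ℤ) s) 0 (2 * Q + 1) ^ M := by
  have hperN : ∀ (n : ℕ) (t : ℤ), lp (t + n * (2 * (Q : ℤ) + 1)) = lp t := by
    intro n
    induction n with
    | zero => intro t; simp
    | succ n ih =>
      intro t
      rw [show t + ((n + 1 : ℕ) : ℤ) * (2 * (Q : ℤ) + 1) = t + n * (2 * (Q : ℤ) + 1)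
        + (2 * (Q : ℤ) + 1) by push_cast; ring, hper, ih]
  have hperiodic : ∀ i : ℕ, (fun s : ℕ => Y ^ C + ct Y v C c0 lp (Q : ℤ) s) (i + (2 * Q + 1))
      = (fun s : ℕ => Y ^ C + ct Y v C c0 lp (Q : ℤ) s) i := by
    intro i
    have : lp (((i + (2 * Q + 1) : ℕ) : ℤ) - (Q : ℤ)) = lp ((i : ℤ) - (Q : ℤ)) := by
      rw [← hper ((i : ℤ) - (Q : ℤ))]
      congr 1
      push_cast
      ring
    simp only [ct, this]
  have e : (2 * M + 1) * (2 * Q + 1) = M * (2 * Q + 1) + (2 * Q + 1) + M * (2 * Q + 1) := by ring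
  rw [e, seg_add, seg_add, ← seg_periodic _ _ hperiodic M 0]
  congr 1
  · congr 1
    · -- left context
      refine seg_congr fun i hi => ?_
      have h1 : (Q : ℤ) < |((0 + i : ℕ) : ℤ) - ((Q : ℤ) + M * (2 * Q + 1))| := by
        rw [lt_abs]
        right
        have : ((0 + i : ℕ) : ℤ) < M * (2 * Q + 1) := by
          rw [zero_add]; exact_mod_cast hi
        linarith
      have : lm (((0 + i : ℕ) : ℤ) - ((Q : ℤ) + M * (2 * Q + 1))) = lp (((0 + i : ℕ) : ℤ) - Q) := by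
        rw [hlm _ h1, ← hperN M (((0 + i : ℕ) : ℤ) - ((Q : ℤ) + M * (2 * Q + 1)))]
        congr 1
        ring
      simp only [ct, this]
    · -- middle
      refine seg_congr fun i hi => ?_
      have : ((0 + M * (2 * Q + 1) + i : ℕ) : ℤ) - ((Q : ℤ) + M * (2 * Q + 1))
          = ((0 + i : ℕ) : ℤ) - Q := by
        push_cast
        ring
      simp only [ct, this]
  · -- right context
    refine seg_congr fun i hi => ?_
    have h1 : (Q : ℤ) < |((0 + (M * (2 * Q + 1) + (2 * Q + 1)) + i : ℕ) : ℤ)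
        - ((Q : ℤ) + M * (2 * Q + 1))| := by
      rw [lt_abs]
      left
      push_cast
      have : (0 : ℤ) ≤ i := by positivity
      linarith
    have : lm (((0 + (M * (2 * Q + 1) + (2 * Q + 1)) + i : ℕ) : ℤ) - ((Q : ℤ) + M * (2 * Q + 1)))
        = lp (((0 + i : ℕ) : ℤ) - Q) := by
      rw [hlm _ h1, ← hper (((0 + i : ℕ) : ℤ) - Q)]
      congr 1
      push_cast
      ring
    simp only [ct, this]

/-- difference in context -/
theorem ctx_diff (Y v : A) (C c0 Q : ℕ) {lp lm : ℤ → ℕ}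
    (hper : ∀ t, lp (t + (2 * (Q : ℤ) + 1)) = lp t) (hlm : ∀ t, (Q : ℤ) < |t| → lm t = lp t)
    (M : ℕ) :
    seg (fun s => Y ^ C + ct Y v C c0 lm ((Q : ℤ) + M * (2 * Q + 1)) s) 0 ((2 * M + 1) * (2 * Q + 1))
      - seg (fun s => Y ^ C + ct Y v C c0 lp ((Q : ℤ) + M * (2 * Q + 1)) s) 0
          ((2 * M + 1) * (2 * Q + 1))
      = seg (fun s => Y ^ C + ct Y v C c0 lp (Q : ℤ) s) 0 (2 * Q + 1) ^ M
        * (seg (fun s => Y ^ C + ct Y v C c0 lm (Q : ℤ) s) 0 (2 * Q + 1)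
          - seg (fun s => Y ^ C + ct Y v C c0 lp (Q : ℤ) s) 0 (2 * Q + 1))
        * seg (fun s => Y ^ C + ct Y v C c0 lp (Q : ℤ) s) 0 (2 * Q + 1) ^ M := by
  rw [ctx_mid Y v C c0 Q hper hlm M, ctx_same Y v C c0 Q hper M]
  set X := seg (fun s => Y ^ C + ct Y v C c0 lp (Q : ℤ) s) 0 (2 * Q + 1)
  rw [show 2 * M + 1 = M + 1 + M by ring, pow_add, pow_add, pow_one]
  noncomm_ring

end

end Vale.Agent.P321.H117
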